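import Vale.Agent.P247.H647.Sta
import Vale.Agent.P247.H957.Fl0
import Vale.Agent.P247.H931.Sta1

/-!
# P247, Stage 2, part S1: exact statements of the packages of the existence theorem

The system: `ψ` a section, `A = A0 ξ + ∑ aᵢ dxᵢ` with `a` periodic and divergence free,
`∑ sig c (cov A ψ (b c)) = 0` and `w4 (dd A, triⱼ) = vⱼ - (1/2) ∑ₖ T j k q_R (ψ)ₖ`, where
`q_R (s) = g (|s|²/R²) ⟨s, pauₖ s⟩` is a smooth truncation.
-/

open scoped ContDiff Topology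
open Set MeasureTheory Filter Metric Complex

noncomputable section

namespace Vale.Agent.P247.H931.S1

open Vale.Agent.P247.H74 Vale.Agent.P247.H574 Vale.Agent.P247.H647 Vale.Agent.P247.H957

/-! ## The frame -/

/-- the frame is triangular with positive diagonal -/
def Tri {D : Data} (Q : Quat D) : Prop := (∀ a x i, i < a → Q.b a x i = 0) ∧ ∀ a x, 0 < Q.b a x a

/-- `QUAT` -/
def QUAT_statement : Prop := ∀ D : Data, Good D → ∃ Q : Quat D, Tri Q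

/-! ## The truncation -/

/-- equal to `1` for `t ≤ 1`, to `1 / t` for `t ≥ 2`, and `1 / t ≤ g t ≤ 1` for `1 ≤ t` -/
def gT (t : ℝ) : ℝ := (1 + (t - 1) * Real.smoothTransition (t - 1))⁻¹

/-- the truncated quadratic map, bounded by `2 R²`, with bounded derivatives of every order -/
def qR (R : ℝ) (s : Sp) (k : Fin 3) : ℝ := gT (‖s‖ ^ 2 / R ^ 2) * (inner ℂ s (pau k s)).re

/-! ## Weak derivatives -/

/-- locally square integrable -/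
def LocL2 {E : Type*} [NormedAddCommGroup E] (f : R4 → E) : Prop :=
  ∀ K : Set R4, IsCompact K → MemLp f 2 (volume.restrict K)

/-- `F` is the weak derivative of `f` in the direction `e i` -/
def WkD {E : Type*} [NormedAddCommGroup E] [NormedSpace ℝ E] (f F : R4 → E) (i : Fin 4) : Prop :=
  ∀ η : R4 → ℝ, ContDiff ℝ ∞ η → HasCompactSupport η →
    ∫ x, fderiv ℝ η x (e i) • f x = - ∫ x, η x • F x

/-- real periodic vector fields in `H¹_loc`, `B i j = ∂ᵢ aⱼ` -/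
structure H1R (a : Fin 4 → R4 → ℝ) (B : Fin 4 → Fin 4 → R4 → ℝ) : Prop where
  a_loc : ∀ i, LocL2 (a i)
  B_loc : ∀ i j, LocL2 (B i j)
  a_per : ∀ i (k : Fin 4 → ℤ) x, a i (tr k x) = a i x
  B_per : ∀ i j (k : Fin 4 → ℤ) x, B i j (tr k x) = B i j x
  der : ∀ i j, WkD (a j) (B i j) i

/-- sections in `H¹_loc`, `W i = ∂ᵢ φ` -/
structure H1S (φ : R4 → Sp) (W : Fin 4 → R4 → Sp) : Prop where
  φ_loc : LocL2 φ
  W_loc : ∀ i, LocL2 (W i)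
  φ_per : QS φ
  der : ∀ i, WkD φ (W i) i

/-- the components of `dd a`, from the matrix `B i j = ∂ᵢ aⱼ` -/
def curl (B : Fin 4 → Fin 4 → R4 → ℝ) (x : R4) (p q : Fin 4) : ℝ := B p q x - B q p x

/-- the components of a form of the triple -/
def triA (D : Data) (j : Fin 3) (x : R4) (p q : Fin 4) : ℝ := (tri D j).val x (e p) (e q)

/-- the components of the curvature of the base connection -/
def F0 (p q : Fin 4) : ℝ := 2 * Real.pi * ((if p = 0 ∧ q = 1 then 1 else 0) -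
  (if p = 1 ∧ q = 0 then 1 else 0))

/-- The weak form of the truncated system. -/
structure WSol {D : Data} (Q : Quat D) (R : ℝ) (ξ : ℝ × ℝ) (φ : R4 → Sp) (W : Fin 4 → R4 → Sp)
    (a : Fin 4 → R4 → ℝ) (B : Fin 4 → Fin 4 → R4 → ℝ) (v : Fin 3 → ℝ) : Prop where
  sec : H1S φ W
  con : H1R a B
  dirac : ∀ᵐ x, ∑ c, sig c (∑ i, (Q.b c x i : ℂ) •
    (W i x - (I * ((A0 ξ x (e i) + a i x : ℝ) : ℂ)) • φ x)) = 0
  div : ∀ᵐ x, ∑ i, B i i x = 0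
  curv : ∀ᵐ x, ∀ j, wdA (fun p q => F0 p q + curl B x p q) (triA D j x) =
    v j - (1 / 2) * ∑ k, Q.T x j k * qR R (φ x) k

/-- `E5`: regularity. -/
def E5_statement : Prop := ∀ (D : Data) (Q : Quat D) (R : ℝ) (ξ : ℝ × ℝ) (φ : R4 → Sp)
  (W : Fin 4 → R4 → Sp) (a : Fin 4 → R4 → ℝ) (B : Fin 4 → Fin 4 → R4 → ℝ) (v : Fin 3 → ℝ), 0 < R →
  WSol Q R ξ φ W a B v → ∃ (φ' : R4 → Sp) (a' : Fin 4 → R4 → ℝ), ContDiff ℝ ∞ φ' ∧
    (∀ i, ContDiff ℝ ∞ (a' i)) ∧ φ =ᵐ[volume] φ' ∧ ∀ i, a i =ᵐ[volume] a' i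

/-! ## The connection as a function of the spinor -/

instance fact4 : Fact ((1 : ENNReal) ≤ 4) := ⟨by norm_num⟩

/-- the value of a two-component field, as a spinor -/
def spv (u : Fin 2 → H) (x : R4) : Sp := WithLp.toLp 2 ![u 0 x, u 1 x]

/-- `E34`: the operator `u ↦ a`. The constant `C` does not depend on `R`. -/
structure ConOp {D : Data} (Q : Quat D) (C R : ℝ) (𝒜 : HH → Lp (Fin 4 → ℝ) 4 mQ) : Prop where
  cont : Continuous 𝒜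
  bdd : ∃ M : ℝ, ∀ u, ‖𝒜 u‖ ≤ M
  phase : ∀ (c : ℂ) (u : HH), ‖c‖ = 1 → 𝒜 (c • u) = 𝒜 u
  sol : ∀ u : HH, ∃ (a : Fin 4 → R4 → ℝ) (B : Fin 4 → Fin 4 → R4 → ℝ) (v : Fin 3 → ℝ),
    (∀ᵐ x ∂mQ, ∀ i, 𝒜 u x i = a i x) ∧ H1R a B ∧ (∀ᵐ x, ∑ i, B i i x = 0) ∧
    (∀ᵐ x ∂mQ, ∀ j, wdA (fun p q => F0 p q + curl B x p q) (triA D j x) =
      v j - (1 / 2) * ∑ k, Q.T x j k * qR R (spv u x) k) ∧
    (∀ j, |v j| ≤ C * (1 + ‖u‖ ^ 2)) ∧
    ∫ x, ∑ i, a i x ^ 2 ∂mQ ≤ C * (1 + ∫ x, ∑ k, qR R (spv u x) k ^ 2 ∂mQ)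

def E34_statement : Prop := ∀ (D : Data) (_ : Good D) (Q : Quat D), ∃ C : ℝ, ∀ R : ℝ, 0 < R →
  ∃ 𝒜 : HH → Lp (Fin 4 → ℝ) 4 mQ, ConOp Q C R 𝒜

/-- `J4`: the Sobolev embedding `H¹ ⊂ L⁴` for sections. -/
def J4_statement : Prop := ∀ (J : ℝ × ℝ → H →L[ℂ] H) (G : ℝ × ℝ → Fin 4 → H →L[ℂ] H), Fl J G →
  ∀ S : Set (ℝ × ℝ), IsCompact S → ∃ C : ℝ, ∀ ξ ∈ S, ∀ w : H,
    eLpNorm (J ξ w) 4 mQ ≤ ENNReal.ofReal (C * ‖w‖)

/-- `EXT`: quasi-periodic extension of the fields of the flat model, with weak derivatives. -/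
def EXT_statement : Prop := ∀ (J : ℝ × ℝ → H →L[ℂ] H) (G : ℝ × ℝ → Fin 4 → H →L[ℂ] H), Fl J G →
  ∀ (ξ : ℝ × ℝ) (w : H), ∃ (φ : R4 → ℂ) (N : Fin 4 → R4 → ℂ), Rep (J ξ w) φ ∧
    (∀ j, Rep (G ξ j w) (N j)) ∧ QS φ ∧ (∀ j, QS (N j)) ∧ LocL2 φ ∧ (∀ j, LocL2 (N j)) ∧
    ∀ j, WkD φ (fun x => N j x + I * (A0 ξ x (e j) : ℂ) * φ x) j

/-! ## The truncated system for smooth fields -/

/-- smooth solutions of the truncated system -/
structure TSW {D : Data} (Q : Quat D) (R : ℝ) (A : R4 → R4 →L[ℝ] ℝ) (ψ : R4 → Sp)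
    (v : Fin 3 → ℝ) : Prop where
  A_smooth : ContDiff ℝ ∞ A
  ψ_smooth : ContDiff ℝ ∞ ψ
  A_quasi : QA A
  ψ_quasi : QS ψ
  dirac : ∀ x, Q.dirac A ψ x = 0
  curv : ∀ x j, w4 (fun p q => dd A x p q) (fun p q => (tri D j).val x p q) =
    v j - (1 / 2) * ∑ k, Q.T x j k * qR R (ψ x) k

/-- `E6`: the maximum principle for the truncated system; `C` does not depend on `R`. -/
def E6_statement : Prop := ∀ (D : Data) (Q : Quat D), ∃ C : ℝ, ∀ (R : ℝ) (A : R4 → R4 →L[ℝ] ℝ)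
  (ψ : R4 → Sp) (v : Fin 3 → ℝ), 0 < R → TSW Q R A ψ v → C * (1 + ∑ j, |v j|) < R ^ 2 →
    ∀ x, ‖ψ x‖ ^ 2 ≤ C * (1 + ∑ j, |v j|)

/-! ## Assembly -/

def ASMS1_statement : Prop := FBU_statement → FLAT_statement → QUAT_statement → E34_statement →
  J4_statement → EXT_statement → E5_statement → E6_statement → S1_statement

end Vale.Agent.P247.H931.S1
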