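import Vale.Agent.P247.H931.S1.Fix
import Vale.Agent.P247.H264.KK

/-!
# The nonlinear term: `KOP_statement`
-/

open scoped ContDiff Topology
open Set MeasureTheory Filter Metric Complex

noncomputable section

namespace Vale.Agent.P247.H931.S1

open Vale.Agent.P247.H74 Vale.Agent.P247.H574 Vale.Agent.P247.H647 Vale.Agent.P247.H957
  Vale.Agent.P247.H94

/-- the coefficients of the nonlinear term -/
def mK {D : Data} (Q : Quat D) : H264.Cof := fun i c d x => -I * symF sigM (EQ Q) i x c d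

theorem jj_eq (J : ℝ × ℝ → H →L[ℂ] H) (ξ : ℝ × ℝ) (w : HH) : H264.jj J ξ w = JhH J ξ w := rfl

theorem continuous_mK {D : Data} (Q : Quat D) (i : Fin 4) (c d : Fin 2) :
    Continuous (mK Q i c d) := by
  unfold mK
  simp only [H199.symF_apply]
  refine continuous_const.mul (continuous_finsetSum _ fun a _ =>
    (Complex.continuous_ofReal.comp ?_).mul continuous_const)
  exact (continuous_apply i).comp (Q.b_smooth a).continuous

theorem KOP : KOP_statement := by
  intro J G hF D Q C R 𝒜 hA T hT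
  obtain ⟨h1, h2, h3, h4⟩ := H264.KK_main hF (mK Q) hA.cont hA.phase T
  refine ⟨H264.KK (mK Q) 𝒜 T J, ⟨h1, ?_, ?_, h3, h4, ?_⟩⟩
  · intro ξ w
    have := h2 ξ 1 0
    simp only [Int.cast_one, Int.cast_zero] at this
    rw [this]
  · intro ξ w
    have := h2 ξ 0 1
    simp only [Int.cast_one, Int.cast_zero] at this
    rw [this]
  · intro ξ w hw
    have hw0 : 0 < ‖w‖ := norm_pos_iff.mpr hw
    set t : ℂ := ((T / ‖w‖ : ℝ) : ℂ) with ht
    have ht0 : t ≠ 0 := by
      rw [ht]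
      exact_mod_cast (div_pos hT hw0).ne'
    have htn : ‖t • w‖ = T := by
      rw [norm_smul, ht, Complex.norm_real, Real.norm_eq_abs, abs_of_pos (by positivity)]
      field_simp
    have e1 : ∀ᵐ x ∂mQ, ∀ c, H264.KK (mK Q) 𝒜 T J ξ (t • w) c x = ∑ i, ∑ d, mK Q i c d x *
        (((𝒜 (H264.jj J ξ (t • w)) x i : ℝ) : ℂ) * H199.Jh J ξ ((t • w) d) x) :=
      ae_all_iff.mpr fun c => H264.KK_ae hF (continuous_mK Q) 𝒜 hT ξ htn c
    have e2 : ∀ᵐ x ∂mQ, ∀ c : Fin 2, (t • H264.KK (mK Q) 𝒜 T J ξ w c : H) x =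
        t * H264.KK (mK Q) 𝒜 T J ξ w c x := ae_all_iff.mpr fun c => by
      filter_upwards [Lp.coeFn_smul t (H264.KK (mK Q) 𝒜 T J ξ w c)] with x hx
      rw [hx, Pi.smul_apply, smul_eq_mul]
    have e3 : ∀ᵐ x ∂mQ, ∀ d : Fin 2, (t • H199.Jh J ξ (w d) : H) x = t * H199.Jh J ξ (w d) x :=
      ae_all_iff.mpr fun d => by
        filter_upwards [Lp.coeFn_smul t (H199.Jh J ξ (w d))] with x hx
        rw [hx, Pi.smul_apply, smul_eq_mul]
    filter_upwards [e1, e2, e3] with x f1 f2 f3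
    ext c
    have g1 := f1 c
    rw [h3, PiLp.smul_apply, f2 c, H264.jj_smul, jj_eq] at g1
    have g2 : ∀ d, H199.Jh J ξ ((t • w) d) x = t * H199.Jh J ξ (w d) x := by
      intro d
      rw [PiLp.smul_apply, map_smul]
      exact f3 d
    simp only [g2] at g1
    rw [spv_apply, PiLp.neg_apply, symb_sum]
    refine mul_left_cancel₀ ht0 ?_
    rw [g1, mul_neg, Finset.mul_sum, ← Finset.sum_neg_distrib]
    refine Finset.sum_congr rfl fun i _ => ?_
    rw [Finset.mul_sum, ← Finset.sum_neg_distrib]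
    refine Finset.sum_congr rfl fun d _ => ?_
    rw [PiLp.smul_apply, spv_apply, smul_eq_mul]
    change _ = -(t * (symF sigM (EQ Q) i x c d * (I * _ * H199.Jh J ξ (w d) x)))
    unfold mK
    ring

end Vale.Agent.P247.H931.S1
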