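import Vale.Agent.P247.H931.S1.Asm
import Vale.Agent.P247.H931.S1.Kop
import Vale.Agent.P247.H931.Top
import Vale.Agent.P247.H350.Red5
import Vale.Agent.P247.H957.FLAT
import Vale.Agent.P247.H103.Quat
import Vale.Agent.P247.H520.Ext
import Vale.Agent.P247.H726.Frm

/-!
# `S1` from `E34` and `E5`
-/

namespace Vale.Agent.P247.H931.S1

open Vale.Agent.P247.H647

theorem fbu : FBU_statement := H350.red TOP

theorem s1_of (hE34 : E34_statement) (hE5 : E5_statement) : S1_statement :=
  s1 fbu H957.FLAT H103.quat hE34 KOP H520.EXT hE5 (E6 H726.frm)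

end Vale.Agent.P247.H931.S1
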