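import Vale.Agent.P247.H931.S1.Ex

/-!
# Assembly of `S1`
-/

open scoped ContDiff Topology
open Set MeasureTheory Filter Metric Complex

noncomputable section

namespace Vale.Agent.P247.H931.S1

open Vale.Agent.P247.H74 Vale.Agent.P247.H574 Vale.Agent.P247.H647 Vale.Agent.P247.H957
  Vale.Agent.P247.H94

theorem volume_cube : volume (Icc (0 : R4) 1) = 1 := by
  rw [Real.volume_Icc_pi]
  simp

instance probQ : IsProbabilityMeasure mQ := ⟨by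
  rw [Measure.restrict_apply_univ]
  exact volume_cube⟩

theorem sum_qR_sq_le {R : ℝ} (s : Sp) {M : ℝ} (h : ‖s‖ ^ 2 ≤ M) : ∑ k, qR R s k ^ 2 ≤ M ^ 2 := by
  have h1 : ∑ k, qR R s k ^ 2 ≤ ∑ k, (inner ℂ s (pau k s)).re ^ 2 := by
    refine Finset.sum_le_sum fun k _ => ?_
    unfold qR
    rw [mul_pow]
    have h2 : gT (‖s‖ ^ 2 / R ^ 2) ^ 2 ≤ 1 := by
      have := gT_nonneg (‖s‖ ^ 2 / R ^ 2)
      have := gT_le_one (‖s‖ ^ 2 / R ^ 2)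
      nlinarith
    nlinarith [sq_nonneg (inner ℂ s (pau k s)).re]
  have h2 : ∑ k, (inner ℂ s (pau k s)).re ^ 2 = (‖s‖ ^ 2) ^ 2 := H332.E6.sp_sq s
  rw [h2] at h1
  have h3 : 0 ≤ ‖s‖ ^ 2 := sq_nonneg _
  nlinarith

theorem norm_JhH_le {J : ℝ × ℝ → H →L[ℂ] H} {G : ℝ × ℝ → Fin 4 → H →L[ℂ] H} (hF : Fl J G)
    (ξ : ℝ × ℝ) (w : HH) : ‖JhH J ξ w‖ ^ 2 ≤ ‖w‖ ^ 2 := by
  rw [PiLp.norm_sq_eq_of_L2, PiLp.norm_sq_eq_of_L2]
  refine Finset.sum_le_sum fun d _ => ?_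
  have h1 := H199.norm_Jh_Gh hF ξ (w d)
  have h2 : 0 ≤ ∑ j, ‖H199.Gh G ξ j (w d)‖ ^ 2 := Finset.sum_nonneg fun j _ => sq_nonneg _
  change ‖H199.Jh J ξ (w d)‖ ^ 2 ≤ _
  linarith

theorem JJ_eq (J : ℝ × ℝ → H →L[ℂ] H) (ξ : ℝ × ℝ) (w : HH) : H199.JJ J ξ w = JhH J ξ w := by
  ext1 d
  rw [H199.JJ_apply]
  rfl

/-- the truncation is inactive -/
theorem qR_eq {R : ℝ} (hR : 0 < R) {s : Sp} (h : ‖s‖ ^ 2 ≤ R ^ 2) (k : Fin 3) :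
    qR R s k = (inner ℂ s (pau k s)).re := by
  unfold qR
  rw [gT_one, one_mul]
  rw [div_le_one (by positivity)]
  exact h

theorem sw_of_tsw {D : Data} {Q : Quat D} {R : ℝ} (hR : 0 < R) {A : R4 → R4 →L[ℝ] ℝ} {ψ : R4 → Sp}
    {v : Fin 3 → ℝ} (h : TSW Q R A ψ v) (hb : ∀ x, ‖ψ x‖ ^ 2 ≤ R ^ 2) :
    SW Q (fun _ => 0) A ψ v where
  A_smooth := h.A_smooth
  ψ_smooth := h.ψ_smooth
  A_quasi := h.A_quasi
  ψ_quasi := h.ψ_quasi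
  dirac x := by
    rw [h.dirac x]
    simp
  curv x j := by
    rw [h.curv x j]
    simp only [qR_eq hR (hb x)]

/-- the a priori bound of the nonlinear term -/
theorem norm_k_le {D : Data} {Q : Quat D} {Mb : ℝ} (hMb0 : 0 ≤ Mb)
    (hMb : ∀ (x : R4) (a : Fin 4 → ℝ) (s : Sp),
      ‖∑ c, sig c (∑ i, (Q.b c x i : ℂ) • ((I * (a i : ℂ)) • s))‖ ^ 2 ≤
        Mb * (∑ i, a i ^ 2) * ‖s‖ ^ 2)
    {𝒜 : Lp (Fin 4 → ℝ) 4 mQ} {k u : HH} {a : Fin 4 → R4 → ℝ}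
    (hk : ∀ᵐ x ∂mQ, spv k x = - ∑ c, sig c (∑ i, (Q.b c x i : ℂ) •
      ((I * (𝒜 x i : ℂ)) • spv u x)))
    (ha : ∀ᵐ x ∂mQ, ∀ i, 𝒜 x i = a i x) (hal : ∀ i, LocL2 (a i)) {M : ℝ}
    (hu : ∀ᵐ x ∂mQ, ‖spv u x‖ ^ 2 ≤ M) :
    ‖k‖ ^ 2 ≤ Mb * M * ∫ x, ∑ i, a i x ^ 2 ∂mQ := by
  have hai : Integrable (fun x => ∑ i, a i x ^ 2) mQ := by
    refine integrable_finsetSum _ fun i _ => ?_
    have h1 : MemLp (a i) 2 mQ := hal i _ isCompact_Icc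
    exact h1.integrable_sq
  rw [norm_sq_spv, ← integral_const_mul]
  refine integral_mono_of_nonneg (Eventually.of_forall fun x => sq_nonneg _) (hai.const_mul _) ?_
  filter_upwards [hk, ha, hu] with x h1 h2 h3
  rw [h1, norm_neg]
  refine (hMb x (fun i => 𝒜 x i) (spv u x)).trans ?_
  simp only [h2]
  have h4 : 0 ≤ ∑ i, a i x ^ 2 := Finset.sum_nonneg fun i _ => sq_nonneg _
  calc Mb * (∑ i, a i x ^ 2) * ‖spv u x‖ ^ 2 ≤ Mb * (∑ i, a i x ^ 2) * M := by gcongr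
    _ = _ := by ring

/-- solutions of the truncated system with prescribed norm, with all bounds -/
theorem exists_tsw (hFBU : FBU_statement) (hEXT : EXT_statement) (hE5 : E5_statement)
    {J : ℝ × ℝ → H →L[ℂ] H} {G : ℝ × ℝ → Fin 4 → H →L[ℂ] H} {θ : H} (hF : Fl J G) (hD : FlD G θ)
    {D : Data} {Q : Quat D} (hT : Tri Q) {C R : ℝ} {𝒜 : HH → Lp (Fin 4 → ℝ) 4 mQ}
    (hA : ConOp Q C R 𝒜) (hR : 0 < R) {T : ℝ} (hT0 : 0 < T) {K : ℝ × ℝ → HH → HH}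
    (hK : KOp Q J T 𝒜 K) {Mb C1 : ℝ} (hMb0 : 0 ≤ Mb)
    (hMb : ∀ (x : R4) (a : Fin 4 → ℝ) (s : Sp),
      ‖∑ c, sig c (∑ i, (Q.b c x i : ℂ) • ((I * (a i : ℂ)) • s))‖ ^ 2 ≤
        Mb * (∑ i, a i ^ 2) * ‖s‖ ^ 2)
    (hC1 : ∀ (ξ : ℝ × ℝ) (w k : HH),
      (∀ c, Dop (H199.Gh G) (symF sigM (EQ Q)) ξ w c + k c = 0) →
      ‖w‖ ≤ C1 * (‖k‖ + ‖H199.JJ J ξ w‖)) :
    ∃ (A : R4 → R4 →L[ℝ] ℝ) (ψ : R4 → Sp) (v : Fin 3 → ℝ) (m κ : ℝ), TSW Q R A ψ v ∧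
      0 ≤ m ∧ 0 ≤ κ ∧ m = ∫ x in cube, ‖ψ x‖ ^ 2 ∧ m ≤ T ^ 2 ∧ (∀ j, |v j| ≤ C * (1 + m)) ∧
      T ≤ C1 * (κ + Real.sqrt m) ∧
      ∀ M, (∀ x, ‖ψ x‖ ^ 2 ≤ M) → κ ^ 2 ≤ Mb * M * (|C| * (1 + M ^ 2)) := by
  obtain ⟨ξ, w, k, hw, heq, hk⟩ := exists_fix hFBU hF hD hT hT0 hK
  set u : HH := JhH J ξ w with hu
  obtain ⟨e1, e2⟩ := eq_of_fix (J := J) (G := G) hT ξ w k (fun i x => 𝒜 u x i) heq hk
  obtain ⟨φ, W, a, B, v, hW, hφ, ha, hv, hb⟩ := wsol_of_cube hF hEXT hA ξ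
    (fun d => H199.Vop (-ξ) (w d)) u (e1.mono fun x hx => ⟨vx ξ x, H199.norm_vx ξ x, hx⟩) e2
  obtain ⟨φ', a', hφ', ha', hφe, hae⟩ := hE5 D Q R ξ φ W a B v hR hW
  have hTSW := tsw_of_wsol hW hφ' ha' hφe hae
  have hns : ∀ᵐ x ∂mQ, ‖spv u x‖ = ‖φ' x‖ := by
    filter_upwards [e1, hφ, ae_restrict_of_ae hφe] with x h1 h2 h3
    rw [h1, norm_smul, H199.norm_vx, one_mul, ← h2, h3]
  have hm : ‖u‖ ^ 2 = ∫ x in cube, ‖φ' x‖ ^ 2 := by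
    rw [norm_sq_spv]
    refine integral_congr_ae ?_
    filter_upwards [hns] with x hx
    rw [hx]
  refine ⟨conA ξ a', φ', v, ‖u‖ ^ 2, ‖k‖, hTSW, sq_nonneg _, norm_nonneg _, hm, ?_, hv, ?_, ?_⟩
  · have := norm_JhH_le hF ξ w
    rw [hw] at this
    exact this
  · have h1 := hC1 ξ w k heq
    rw [hw, JJ_eq] at h1
    rw [Real.sqrt_sq (norm_nonneg _)]
    exact h1
  · intro M hM
    have hM0 : 0 ≤ M := (sq_nonneg _).trans (hM 0)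
    have hsp : ∀ᵐ x ∂mQ, ‖spv u x‖ ^ 2 ≤ M := by
      filter_upwards [hns] with x hx
      rw [hx]
      exact hM x
    have h1 := norm_k_le hMb0 hMb hk ha (fun i => hW.con.a_loc i) hsp
    refine h1.trans (mul_le_mul_of_nonneg_left (hb.trans ?_) (by positivity))
    have h2 : ∫ x, ∑ k, qR R (spv u x) k ^ 2 ∂mQ ≤ M ^ 2 := by
      have h3 : ∫ x, ∑ k, qR R (spv u x) k ^ 2 ∂mQ ≤ ∫ _x, M ^ 2 ∂mQ := by
        refine integral_mono_of_nonneg (Eventually.of_forall fun x =>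
          Finset.sum_nonneg fun k _ => sq_nonneg _) (integrable_const _) ?_
        filter_upwards [hsp] with x hx
        exact sum_qR_sq_le _ hx
      simpa using h3
    have h4 : 0 ≤ ∫ x, ∑ k, qR R (spv u x) k ^ 2 ∂mQ :=
      integral_nonneg fun x => Finset.sum_nonneg fun k _ => sq_nonneg _
    calc C * (1 + ∫ x, ∑ k, qR R (spv u x) k ^ 2 ∂mQ) ≤
        |C| * (1 + ∫ x, ∑ k, qR R (spv u x) k ^ 2 ∂mQ) := by
          gcongr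
          exact le_abs_self C
      _ ≤ |C| * (1 + M ^ 2) := by gcongr

/-- the final choice of constants -/
theorem consts (C C6 C1 Mb R0 : ℝ) (hC1 : 0 < C1) (hMb : 0 ≤ Mb) :
    ∃ T > 0, ∃ R > 0, ∀ (m κ S : ℝ) (v : Fin 3 → ℝ), 0 ≤ m → 0 ≤ κ → m ≤ T ^ 2 →
      (∀ j, |v j| ≤ C * (1 + m)) → T ≤ C1 * (κ + Real.sqrt m) → S = C6 * (1 + ∑ j, |v j|) →
      S < R ^ 2 ∧ ((0 ≤ S → κ ^ 2 ≤ Mb * S * (|C| * (1 + S ^ 2))) → 0 ≤ S → R0 ≤ m) := by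
  set m0 : ℝ := max R0 0 with hm0
  set Ms : ℝ := |C6| * (1 + 3 * (|C| * (1 + m0))) with hMs
  set F : ℝ := C1 * (Real.sqrt (Mb * Ms * (|C| * (1 + Ms ^ 2))) + Real.sqrt m0) with hF
  have hm00 : 0 ≤ m0 := le_max_right _ _
  have hMs0 : 0 ≤ Ms := by positivity
  have hF0 : 0 ≤ F := by positivity
  refine ⟨F + 1, by positivity, |C6| * (1 + 3 * (|C| * (1 + (F + 1) ^ 2))) + 1, by positivity, ?_⟩
  intro m κ S v hm hκ hmT hv hT hS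
  have key : ∀ n, m ≤ n → S ≤ |C6| * (1 + 3 * (|C| * (1 + n))) := by
    intro n hn
    have h1 : ∑ j, |v j| ≤ 3 * (|C| * (1 + n)) := by
      have h2 : ∀ j, |v j| ≤ |C| * (1 + n) := fun j => (hv j).trans (by
        calc C * (1 + m) ≤ |C| * (1 + m) := by
              gcongr
              exact le_abs_self C
          _ ≤ |C| * (1 + n) := by gcongr)
      calc ∑ j, |v j| ≤ ∑ _j : Fin 3, |C| * (1 + n) := Finset.sum_le_sum fun j _ => h2 j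
        _ = _ := by simp
    have h0 : 0 ≤ ∑ j, |v j| := Finset.sum_nonneg fun j _ => abs_nonneg _
    rw [hS]
    calc C6 * (1 + ∑ j, |v j|) ≤ |C6| * (1 + ∑ j, |v j|) := by
          gcongr
          exact le_abs_self C6
      _ ≤ _ := by gcongr
  constructor
  · have h1 := key _ hmT
    set X : ℝ := |C6| * (1 + 3 * (|C| * (1 + (F + 1) ^ 2))) with hX
    have hX0 : 0 ≤ X := by positivity
    nlinarith
  · intro hk hS0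
    by_contra hlt
    have hlt' : m ≤ m0 := (not_le.mp hlt).le.trans (le_max_left _ _)
    have h1 : S ≤ Ms := key m0 hlt'
    have h2 : κ ^ 2 ≤ Mb * Ms * (|C| * (1 + Ms ^ 2)) := (hk hS0).trans (by gcongr)
    have h3 : κ ≤ Real.sqrt (Mb * Ms * (|C| * (1 + Ms ^ 2))) := Real.le_sqrt_of_sq_le h2
    have h4 : Real.sqrt m ≤ Real.sqrt m0 := Real.sqrt_le_sqrt hlt'
    have h5 : C1 * (κ + Real.sqrt m) ≤ F := by
      rw [hF]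
      gcongr
    linarith

theorem s1 (hFBU : FBU_statement) (hFLAT : FLAT_statement) (hQUAT : QUAT_statement)
    (hE34 : E34_statement) (hKOP : KOP_statement) (hEXT : EXT_statement) (hE5 : E5_statement)
    (hE6 : E6_statement) : S1_statement := by
  intro D hGood
  obtain ⟨Q, hT⟩ := hQUAT D hGood
  refine ⟨Q, fun _ => 0, contDiff_const, fun _ _ => rfl, fun R0 => ?_⟩
  obtain ⟨J, G, θ, hF, hFD⟩ := hFLAT
  obtain ⟨C, hC⟩ := hE34 D hGood Q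
  obtain ⟨C6, hC6⟩ := hE6 D Q
  obtain ⟨C1, hC1, hap⟩ := apri hF (tri_EQ hT)
  obtain ⟨Mb, hMb0, hMb⟩ := bound_k Q
  obtain ⟨T, hT0, R, hR, hfin⟩ := consts C C6 C1 Mb R0 hC1 hMb0
  obtain ⟨𝒜, hA⟩ := hC R hR
  obtain ⟨K, hK⟩ := hKOP J G hF D Q C R 𝒜 hA T hT0
  obtain ⟨A, ψ, v, m, κ, hTSW, hm, hκ, hmi, hmT, hv, hTle, hκM⟩ :=
    exists_tsw hFBU hEXT hE5 hF hFD hT hA hR hT0 hK hMb0 hMb hap
  obtain ⟨h1, h2⟩ := hfin m κ _ v hm hκ hmT hv hTle rfl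
  have h3 := hC6 R A ψ v hR hTSW h1
  have h4 : 0 ≤ C6 * (1 + ∑ j, |v j|) := (sq_nonneg _).trans (h3 0)
  refine ⟨A, ψ, v, sw_of_tsw hR hTSW fun x => (h3 x).trans h1.le, ?_⟩
  rw [← hmi]
  exact h2 (fun _ => hκM _ h3) h4

end Vale.Agent.P247.H931.S1
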