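import Vale.Agent.P247.H931.S1.Sta

/-!
# From smooth representatives of a weak solution to classical solutions
-/

open scoped ContDiff Topology
open Set MeasureTheory Filter Metric Complex

noncomputable section

namespace Vale.Agent.P247.H931.S1

open Vale.Agent.P247.H74 Vale.Agent.P247.H574 Vale.Agent.P247.H647 Vale.Agent.P247.H957

section Weak

variable {E : Type*} [NormedAddCommGroup E] [NormedSpace ℝ E]

omit [NormedSpace ℝ E] in
theorem LocL2.locInt {f : R4 → E} (hf : LocL2 f) : LocallyIntegrable f volume := by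
  rw [locallyIntegrable_iff]
  intro K hK
  have : IsFiniteMeasure (volume.restrict K : Measure R4) := ⟨by
    rw [Measure.restrict_apply_univ]
    exact hK.measure_lt_top⟩
  exact (hf K hK).integrable (by norm_num)

omit [NormedSpace ℝ E] in
theorem LocL2.congr {f g : R4 → E} (hf : LocL2 f) (h : f =ᵐ[volume] g) : LocL2 g := by
  intro K hK
  exact (memLp_congr_ae (ae_restrict_of_ae h)).mp (hf K hK)

/-- the weak derivative of a smooth function is its derivative -/
theorem wkD_eq [CompleteSpace E] {f F : R4 → E} {i : Fin 4} (h : WkD f F i) (hF : LocL2 F) {g : R4 → E}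
    (hg : ContDiff ℝ 1 g) (hfg : f =ᵐ[volume] g) : F =ᵐ[volume] fun x => fderiv ℝ g x (e i) := by
  have hgc : Continuous fun x => fderiv ℝ g x (e i) :=
    (hg.continuous_fderiv one_ne_zero).clm_apply continuous_const
  refine ae_eq_of_integral_contDiff_smul_eq hF.locInt hgc.locallyIntegrable fun η hη hηc => ?_
  have h1 := h η hη hηc
  have h2 : ∫ x, fderiv ℝ η x (e i) • f x = ∫ x, fderiv ℝ η x (e i) • g x := by
    refine integral_congr_ae ?_
    filter_upwards [hfg] with x hx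
    rw [hx]
  have hη1 : ContDiff ℝ 1 η := hη.of_le (by simp)
  have hdη : Continuous fun x => fderiv ℝ η x (e i) :=
    (hη1.continuous_fderiv one_ne_zero).clm_apply continuous_const
  have hdηc : HasCompactSupport fun x => fderiv ℝ η x (e i) :=
    hηc.fderiv_apply (𝕜 := ℝ) (e i)
  have h3 : ∫ x, η x • fderiv ℝ g x (e i) = - ∫ x, fderiv ℝ η x (e i) • g x := by
    refine integral_smul_fderiv_eq_neg_fderiv_smul_of_integrable ?_ ?_ ?_ ?_ ?_
    · exact (hdη.smul hg.continuous).integrable_of_hasCompactSupport hdηc.smul_right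
    · exact (hη.continuous.smul hgc).integrable_of_hasCompactSupport hηc.smul_right
    · exact (hη.continuous.smul hg.continuous).integrable_of_hasCompactSupport hηc.smul_right
    · exact fun x _ => (hη1.differentiable one_ne_zero) x
    · exact fun x _ => (hg.differentiable one_ne_zero) x
  rw [h3, ← h2, h1, neg_neg]

theorem eq_of_ae {X : Type*} [TopologicalSpace X] [T2Space X] {f g : R4 → X} (hf : Continuous f)
    (hg : Continuous g) (h : ∀ᵐ x, f x = g x) (x : R4) : f x = g x :=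
  congrFun ((Continuous.ae_eq_iff_eq volume hf hg).mp h) x

end Weak

theorem ae_tr {p : R4 → Prop} (h : ∀ᵐ x, p x) (k : Fin 4 → ℤ) : ∀ᵐ x, p (tr k x) := by
  have h1 : MeasurePreserving (fun x : R4 => x + fun i => (k i : ℝ)) volume volume :=
    measurePreserving_add_right volume _
  exact h1.quasiMeasurePreserving.ae h

/-- smooth representatives are quasi-periodic -/
theorem qs_of_ae {E : Type*} [NormedAddCommGroup E] [NormedSpace ℂ E] {φ φ' : R4 → E} (h : QS φ)
    (hφ : Continuous φ') (hae : φ =ᵐ[volume] φ') : QS φ' := by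
  intro k x
  refine eq_of_ae (f := fun x => φ' (tr k x))
    (g := fun x => cexp (2 * Real.pi * I * k 0 * x 1) • φ' x) ?_ ?_ ?_ x
  · exact hφ.comp (by unfold tr; fun_prop)
  · refine Continuous.smul ?_ hφ
    fun_prop
  · filter_upwards [hae, ae_tr hae k] with y h1 h2
    rw [← h2, h k y, h1]

theorem per_of_ae {E : Type*} [TopologicalSpace E] [T2Space E] {a a' : R4 → E}
    (h : ∀ (k : Fin 4 → ℤ) x, a (tr k x) = a x)
    (ha : Continuous a') (hae : a =ᵐ[volume] a') : ∀ (k : Fin 4 → ℤ) x, a' (tr k x) = a' x := by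
  intro k x
  refine eq_of_ae (f := fun x => a' (tr k x)) (g := a') ?_ ha ?_ x
  · exact ha.comp (by unfold tr; fun_prop)
  · filter_upwards [hae, ae_tr hae k] with y h1 h2
    rw [← h2, h k y, h1]

/-! ## The connection -/

/-- the connection `A0 ξ + ∑ aᵢ dxᵢ` -/
def conA (ξ : ℝ × ℝ) (a : Fin 4 → R4 → ℝ) (x : R4) : R4 →L[ℝ] ℝ :=
  A0 ξ x + ∑ i, a i x • (ContinuousLinearMap.proj i : R4 →L[ℝ] ℝ)

theorem contDiff_A0' (ξ : ℝ × ℝ) : ContDiff ℝ ∞ (A0 ξ) := by
  unfold A0
  have h1 : ContDiff ℝ ∞ fun x : R4 => 2 * Real.pi * x 0 :=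
    contDiff_const.mul (contDiff_apply ℝ ℝ (0 : Fin 4))
  exact ((h1.smul contDiff_const).sub contDiff_const).sub contDiff_const

theorem contDiff_conA {ξ : ℝ × ℝ} {a : Fin 4 → R4 → ℝ} (ha : ∀ i, ContDiff ℝ ∞ (a i)) :
    ContDiff ℝ ∞ (conA ξ a) := by
  unfold conA
  exact (contDiff_A0' ξ).add (ContDiff.sum fun i _ => (ha i).smul contDiff_const)

theorem qa_conA {ξ : ℝ × ℝ} {a : Fin 4 → R4 → ℝ} (ha : ∀ i (k : Fin 4 → ℤ) x, a i (tr k x) = a i x) :
    QA (conA ξ a) := by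
  intro k x
  unfold conA
  simp only [ha]
  have h1 : A0 ξ (tr k x) = A0 ξ x +
      (2 * Real.pi * k 0) • (ContinuousLinearMap.proj 1 : R4 →L[ℝ] ℝ) := by
    unfold A0 tr
    ext v
    simp
    ring
  rw [h1]
  abel

theorem conA_e (ξ : ℝ × ℝ) (a : Fin 4 → R4 → ℝ) (x : R4) (i : Fin 4) :
    conA ξ a x (e i) = A0 ξ x (e i) + a i x := by
  unfold conA
  rw [add_apply, sum_apply]
  congr 1
  rw [Finset.sum_eq_single i]
  · simp [e]
  · intro j _ hj
    simp [e, hj]
  · simp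

theorem hasFDerivAt_A0 (ξ : ℝ × ℝ) (x : R4) : HasFDerivAt (A0 ξ)
    (((2 * Real.pi) • (ContinuousLinearMap.proj 0 : R4 →L[ℝ] ℝ)).smulRight
      (ContinuousLinearMap.proj 1 : R4 →L[ℝ] ℝ)) x := by
  unfold A0
  have h1 : HasFDerivAt (fun x : R4 => 2 * Real.pi * x 0)
      ((2 * Real.pi) • (ContinuousLinearMap.proj 0 : R4 →L[ℝ] ℝ)) x := by
    have := ((ContinuousLinearMap.proj 0 : R4 →L[ℝ] ℝ).hasFDerivAt (x := x)).const_mul (2 * Real.pi)
    simpa using this
  have h2 := h1.smul_const (ContinuousLinearMap.proj 1 : R4 →L[ℝ] ℝ)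
  exact (h2.sub_const ((2 * Real.pi * ξ.1) • (ContinuousLinearMap.proj 2 : R4 →L[ℝ] ℝ))).sub_const
    ((2 * Real.pi * ξ.2) • (ContinuousLinearMap.proj 3 : R4 →L[ℝ] ℝ))

theorem fderiv_conA {ξ : ℝ × ℝ} {a : Fin 4 → R4 → ℝ} (ha : ∀ i, ContDiff ℝ ∞ (a i)) (x : R4)
    (p q : Fin 4) : fderiv ℝ (conA ξ a) x (e p) (e q) =
      (if p = 0 ∧ q = 1 then 2 * Real.pi else 0) + fderiv ℝ (a q) x (e p) := by
  have hd : ∀ i, HasFDerivAt (fun y => a i y • (ContinuousLinearMap.proj i : R4 →L[ℝ] ℝ))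
      ((fderiv ℝ (a i) x).smulRight (ContinuousLinearMap.proj i : R4 →L[ℝ] ℝ)) x := fun i =>
    (((ha i).differentiable (by simp)) x).hasFDerivAt.smul_const
      (ContinuousLinearMap.proj i : R4 →L[ℝ] ℝ)
  have h1 : HasFDerivAt (conA ξ a) (((2 * Real.pi) •
      (ContinuousLinearMap.proj 0 : R4 →L[ℝ] ℝ)).smulRight (ContinuousLinearMap.proj 1 : R4 →L[ℝ] ℝ)
      + ∑ i, (fderiv ℝ (a i) x).smulRight (ContinuousLinearMap.proj i : R4 →L[ℝ] ℝ)) x := by
    unfold conA
    exact (hasFDerivAt_A0 ξ x).add (HasFDerivAt.fun_sum fun i _ => hd i)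
  rw [h1.fderiv]
  rw [add_apply, add_apply]
  congr 1
  · fin_cases p <;> fin_cases q <;> simp [e]
  · rw [sum_apply, sum_apply,
      Finset.sum_eq_single q]
    · simp [e]
    · intro j _ hj
      simp [e, hj]
    · simp

theorem dd_conA {ξ : ℝ × ℝ} {a : Fin 4 → R4 → ℝ} (ha : ∀ i, ContDiff ℝ ∞ (a i)) (x : R4)
    (p q : Fin 4) : dd (conA ξ a) x (e p) (e q) =
      F0 p q + (fderiv ℝ (a q) x (e p) - fderiv ℝ (a p) x (e q)) := by
  unfold dd F0
  rw [sub_apply, sub_apply,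
    ContinuousLinearMap.flip_apply, fderiv_conA ha, fderiv_conA ha]
  by_cases h1 : p = 0 ∧ q = 1
  · obtain ⟨rfl, rfl⟩ := h1
    simp
    ring
  · by_cases h2 : q = 0 ∧ p = 1
    · obtain ⟨rfl, rfl⟩ := h2
      simp
      ring
    · have h2' : ¬ (p = 1 ∧ q = 0) := fun h => h2 ⟨h.2, h.1⟩
      rw [if_neg h1, if_neg h2, if_neg h1, if_neg h2']
      ring

theorem w4_eq (Φ Ψ : R4 → R4 → ℝ) :
    w4 Φ Ψ = wdA (fun p q => Φ (e p) (e q)) (fun p q => Ψ (e p) (e q)) := rfl

/-- the Dirac operator in coordinates -/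
theorem dirac_coord {D : Data} (Q : Quat D) (A : R4 → R4 →L[ℝ] ℝ) (ψ : R4 → Sp) (x : R4) :
    Q.dirac A ψ x = ∑ c, sig c (∑ i, (Q.b c x i : ℂ) •
      (fderiv ℝ ψ x (e i) - (I * ((A x (e i) : ℝ) : ℂ)) • ψ x)) := by
  unfold Quat.dirac cov
  refine Finset.sum_congr rfl fun c _ => ?_
  congr 1
  have hb : Q.b c x = ∑ i, Q.b c x i • e i := by
    funext j
    simp [e, Finset.sum_apply, Pi.single_apply]
  have h1 : fderiv ℝ ψ x (Q.b c x) = ∑ i, (Q.b c x i : ℂ) • fderiv ℝ ψ x (e i) := by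
    conv_lhs => rw [hb]
    rw [map_sum]
    refine Finset.sum_congr rfl fun i _ => ?_
    rw [map_smul]
    exact (Complex.coe_smul _ _).symm
  have h2 : A x (Q.b c x) = ∑ i, Q.b c x i * A x (e i) := by
    conv_lhs => rw [hb]
    rw [map_sum]
    exact Finset.sum_congr rfl fun i _ => by rw [map_smul, smul_eq_mul]
  rw [h1, h2]
  simp only [smul_sub, Finset.sum_sub_distrib]
  congr 1
  push_cast
  rw [Finset.mul_sum, Finset.sum_smul]
  refine Finset.sum_congr rfl fun i _ => ?_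
  rw [smul_smul]
  congr 1
  ring

end Vale.Agent.P247.H931.S1
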