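import Vale.Agent.P247.H931.S1.Cl
import Vale.Agent.P247.H332.E6.Trunc

/-!
# The truncation, the classical system, and `E6`
-/

open scoped ContDiff Topology
open Set MeasureTheory Filter Metric Complex

noncomputable section

namespace Vale.Agent.P247.H931.S1

open Vale.Agent.P247.H74 Vale.Agent.P247.H574 Vale.Agent.P247.H647 Vale.Agent.P247.H957

/-! ## The truncation -/

theorem gT_den_pos (t : ℝ) : 1 ≤ 1 + (t - 1) * Real.smoothTransition (t - 1) := by
  rcases le_total (t - 1) 0 with h | h
  · rw [Real.smoothTransition.zero_of_nonpos h]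
    simp
  · have := mul_nonneg h (Real.smoothTransition.nonneg (t - 1))
    linarith

theorem contDiff_gT : ContDiff ℝ ∞ gT := by
  unfold gT
  refine ContDiff.inv ?_ fun t => by
    have := gT_den_pos t
    positivity
  exact contDiff_const.add ((contDiff_id.sub contDiff_const).mul
    (Real.smoothTransition.contDiff.comp (contDiff_id.sub contDiff_const)))

theorem gT_nonneg (t : ℝ) : 0 ≤ gT t := by
  unfold gT
  have := gT_den_pos t
  positivity

theorem gT_le_one (t : ℝ) : gT t ≤ 1 := inv_le_one_of_one_le₀ (gT_den_pos t)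

theorem gT_one {t : ℝ} (h : t ≤ 1) : gT t = 1 := by
  unfold gT
  rw [Real.smoothTransition.zero_of_nonpos (by linarith)]
  simp

theorem le_gT {t : ℝ} (h : 0 ≤ t) : min t 1 ≤ t * gT t := by
  rcases le_total t 1 with h1 | h1
  · rw [gT_one h1, mul_one]
    exact min_le_left _ _
  · refine (min_le_right _ _).trans ?_
    unfold gT
    rw [← div_eq_mul_inv, le_div_iff₀ (lt_of_lt_of_le one_pos (gT_den_pos t)), one_mul]
    have h2 : (t - 1) * Real.smoothTransition (t - 1) ≤ (t - 1) * 1 :=
      mul_le_mul_of_nonneg_left (Real.smoothTransition.le_one _) (by linarith)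
    linarith

theorem le_gT' {R t : ℝ} (hR : 0 < R) (h : 0 ≤ t) : min t (R ^ 2) ≤ t * gT (t / R ^ 2) := by
  have hR2 : 0 < R ^ 2 := by positivity
  have h1 := le_gT (t := t / R ^ 2) (by positivity)
  have h2 : min t (R ^ 2) = R ^ 2 * min (t / R ^ 2) 1 := by
    rw [mul_min_of_nonneg _ _ hR2.le, mul_one, mul_div_cancel₀ _ hR2.ne']
  rw [h2]
  calc R ^ 2 * min (t / R ^ 2) 1 ≤ R ^ 2 * (t / R ^ 2 * gT (t / R ^ 2)) :=
        mul_le_mul_of_nonneg_left h1 hR2.le
    _ = t * gT (t / R ^ 2) := by
        rw [← mul_assoc, mul_div_cancel₀ _ hR2.ne']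

theorem gT_mul_le {t : ℝ} (h : 0 ≤ t) : t * gT t ≤ 2 := by
  have _ := h
  rcases le_total t 2 with h1 | h1
  · calc t * gT t ≤ t * 1 := mul_le_mul_of_nonneg_left (gT_le_one t) h
      _ ≤ 2 := by linarith
  · unfold gT
    rw [Real.smoothTransition.one_of_one_le (by linarith)]
    rw [show 1 + (t - 1) * 1 = t by ring, mul_inv_cancel₀ (by linarith)]
    norm_num

theorem continuous_qR {R : ℝ} (k : Fin 3) : Continuous fun s : Sp => qR R s k := by
  unfold qR
  exact (contDiff_gT.continuous.comp ((continuous_norm.pow 2).div_const _)).mul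
    (Complex.continuous_re.comp (continuous_id.inner ((pau k).continuous)))

/-! ## Classical solutions -/

theorem continuous_triA (D : Data) (j : Fin 3) (p q : Fin 4) : Continuous fun x => triA D j x p q := by
  unfold triA CForm.val
  have h1 : Continuous (fderiv ℝ (tri D j).lam) :=
    (tri D j).lam_smooth.continuous_fderiv (by simp)
  exact (continuous_const.add ((h1.clm_apply continuous_const).clm_apply continuous_const)).sub
    ((h1.clm_apply continuous_const).clm_apply continuous_const)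

theorem tsw_of_wsol {D : Data} {Q : Quat D} {R : ℝ} {ξ : ℝ × ℝ} {φ : R4 → Sp}
    {W : Fin 4 → R4 → Sp} {a : Fin 4 → R4 → ℝ} {B : Fin 4 → Fin 4 → R4 → ℝ} {v : Fin 3 → ℝ}
    (h : WSol Q R ξ φ W a B v) {φ' : R4 → Sp} {a' : Fin 4 → R4 → ℝ} (hφ' : ContDiff ℝ ∞ φ')
    (ha' : ∀ i, ContDiff ℝ ∞ (a' i)) (h1 : φ =ᵐ[volume] φ') (h2 : ∀ i, a i =ᵐ[volume] a' i) :
    TSW Q R (conA ξ a') φ' v := by
  have hone : (1 : WithTop ℕ∞) ≤ ∞ := by simp
  have hW : ∀ i, W i =ᵐ[volume] fun x => fderiv ℝ φ' x (e i) := fun i =>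
    wkD_eq (h.sec.der i) (h.sec.W_loc i) (hφ'.of_le hone) h1
  have hB : ∀ i j, B i j =ᵐ[volume] fun x => fderiv ℝ (a' j) x (e i) := fun i j =>
    wkD_eq (h.con.der i j) (h.con.B_loc i j) ((ha' j).of_le hone) (h2 j)
  have hA : ContDiff ℝ ∞ (conA ξ a') := contDiff_conA ha'
  have hdφ : ∀ i, Continuous fun x => fderiv ℝ φ' x (e i) := fun i =>
    (hφ'.continuous_fderiv (by simp)).clm_apply continuous_const
  have hda : ∀ i j, Continuous fun x => fderiv ℝ (a' j) x (e i) := fun i j =>
    ((ha' j).continuous_fderiv (by simp)).clm_apply continuous_const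
  refine ⟨hA, hφ', qa_conA fun i => per_of_ae (h.con.a_per i) (ha' i).continuous (h2 i),
    qs_of_ae h.sec.φ_per hφ'.continuous h1, ?_, ?_⟩
  · refine eq_of_ae ?_ continuous_const ?_
    · have hc : ∀ x, Q.dirac (conA ξ a') φ' x = ∑ c, sig c (∑ i, (Q.b c x i : ℂ) •
          (fderiv ℝ φ' x (e i) - (I * ((conA ξ a' x (e i) : ℝ) : ℂ)) • φ' x)) :=
        dirac_coord Q (conA ξ a') φ'
      rw [show Q.dirac (conA ξ a') φ' = fun x => Q.dirac (conA ξ a') φ' x from rfl]
      simp only [hc]
      refine continuous_finsetSum _ fun c _ => (sig c).continuous.comp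
        (continuous_finsetSum _ fun i _ => ?_)
      have e1 : Continuous fun x => (Q.b c x i : ℂ) :=
        Complex.continuous_ofReal.comp ((continuous_apply i).comp (Q.b_smooth c).continuous)
      have e2 : Continuous fun x => (I * ((conA ξ a' x (e i) : ℝ) : ℂ)) :=
        continuous_const.mul (Complex.continuous_ofReal.comp
          (hA.continuous.clm_apply continuous_const))
      exact e1.smul ((hdφ i).sub (e2.smul hφ'.continuous))
    · have h2' : ∀ᵐ x, ∀ i, a i x = a' i x := ae_all_iff.mpr h2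
      have hW' : ∀ᵐ x, ∀ i, W i x = fderiv ℝ φ' x (e i) := ae_all_iff.mpr hW
      filter_upwards [h.dirac, h1, h2', hW'] with x e1 e2 e3 e4
      rw [dirac_coord]
      rw [e2] at e1
      simp only [e3, e4] at e1
      simp only [conA_e]
      exact e1
  · intro x j
    refine eq_of_ae (f := fun x => w4 (fun p q => dd (conA ξ a') x p q)
      (fun p q => (tri D j).val x p q)) (g := fun x =>
      v j - (1 / 2) * ∑ k, Q.T x j k * qR R (φ' x) k) ?_ ?_ ?_ x
    · have hdd : ∀ p q, Continuous fun x => dd (conA ξ a') x (e p) (e q) := by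
        intro p q
        simp only [dd_conA ha']
        exact continuous_const.add ((hda p q).sub (hda q p))
      have ht : ∀ p q, Continuous fun x => (tri D j).val x (e p) (e q) := fun p q =>
        continuous_triA D j p q
      unfold w4
      exact (((((hdd 0 1).mul (ht 2 3)).sub ((hdd 0 2).mul (ht 1 3))).add
        ((hdd 0 3).mul (ht 1 2))).add ((hdd 1 2).mul (ht 0 3))).sub ((hdd 1 3).mul (ht 0 2))
        |>.add ((hdd 2 3).mul (ht 0 1))
    · exact continuous_const.sub (continuous_const.mul (continuous_finsetSum _ fun k _ =>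
        (Q.T_smooth j k).continuous.mul ((continuous_qR k).comp hφ'.continuous)))
    · have hB' : ∀ᵐ x, ∀ i j, B i j x = fderiv ℝ (a' j) x (e i) :=
        ae_all_iff.mpr fun i => ae_all_iff.mpr fun j => hB i j
      filter_upwards [h.curv, h1, hB'] with x e1 e2 e3
      have e4 := e1 j
      rw [e2] at e4
      rw [← e4]
      rw [w4_eq]
      simp only [dd_conA ha', curl, e3]
      rfl

/-! ## The maximum principle -/

theorem E6 (hFRM : FRM_statement) : E6_statement := by
  intro D Q
  obtain ⟨K, hK, h⟩ := H332.E6.trunc Q hFRM (Z := fun _ => 0) contDiff_const (fun _ _ => rfl)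
  refine ⟨K, fun R A ψ v hR hT hlt x => ?_⟩
  have hlen : len v ≤ ∑ j, |v j| := H332.E6.len_le_sum v
  have h1 : K * (1 + len v) ≤ K * (1 + ∑ j, |v j|) :=
    mul_le_mul_of_nonneg_left (by linarith) hK.le
  refine (h A ψ v (fun t => gT (t / R ^ 2)) (R ^ 2) (hT.A_smooth.of_le (by simp))
    (hT.ψ_smooth.of_le H332.E6.two_le_inf) hT.ψ_quasi (fun x => ?_)
    (fun t ht => le_gT' hR ht) ?_ (by linarith) x).trans h1
  · rw [hT.dirac]
    simp
  · intro x j
    rw [hT.curv x j]
    congr 2
    change _ = gT (‖ψ x‖ ^ 2 / R ^ 2) * _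
    rw [Finset.mul_sum]
    refine Finset.sum_congr rfl fun k _ => ?_
    unfold qR
    ring

end Vale.Agent.P247.H931.S1
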