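import Vale.Agent.P247.H931.S1.Fix
import Vale.Agent.P247.H931.S1.Tsw

/-!
# Existence: the fixed point, the bounds
-/

open scoped ContDiff Topology
open Set MeasureTheory Filter Metric Complex

noncomputable section

namespace Vale.Agent.P247.H931.S1

open Vale.Agent.P247.H74 Vale.Agent.P247.H574 Vale.Agent.P247.H647 Vale.Agent.P247.H957
  Vale.Agent.P247.H94

theorem exists_fix (hFBU : FBU_statement) {J : ℝ × ℝ → H →L[ℂ] H}
    {G : ℝ × ℝ → Fin 4 → H →L[ℂ] H} {θ : H} (hF : Fl J G) (hD : FlD G θ) {D : Data} {Q : Quat D}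
    (hT : Tri Q) {𝒜 : HH → Lp (Fin 4 → ℝ) 4 mQ} {T : ℝ} (hT0 : 0 < T) {K : ℝ × ℝ → HH → HH}
    (hK : KOp Q J T 𝒜 K) :
    ∃ (ξ : ℝ × ℝ) (w k : HH), ‖w‖ = T ∧
      (∀ c, Dop (H199.Gh G) (symF sigM (EQ Q)) ξ w c + k c = 0) ∧
      ∀ᵐ x ∂mQ, spv k x = - ∑ c, sig c (∑ i, (Q.b c x i : ℂ) •
        ((I * (𝒜 (JhH J ξ w) x i : ℂ)) • spv (JhH J ξ w) x)) := by
  obtain ⟨ξ, w, hw, h⟩ := H199.glue_sig hFBU hF hD (tri_EQ hT) K hK.cont hK.per1 hK.per2 hK.hom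
    hK.cpt
  have hw0 : 0 < ‖w‖ := norm_pos_iff.mpr hw
  set t : ℂ := ((T / ‖w‖ : ℝ) : ℂ) with ht
  have htn : ‖t • w‖ = T := by
    rw [norm_smul, ht, Complex.norm_real, Real.norm_eq_abs, abs_of_pos (by positivity)]
    field_simp
  have htw : t • w ≠ 0 := by
    rw [← norm_pos_iff, htn]
    exact hT0
  refine ⟨ξ, t • w, K ξ (t • w), htn, fun c => ?_, ?_⟩
  · have h1 : Dop (H199.Gh G) (symF sigM (EQ Q)) ξ (t • w).ofLp c =
        t • Dop (H199.Gh G) (symF sigM (EQ Q)) ξ w c := by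
      unfold Dop
      rw [Finset.smul_sum]
      refine Finset.sum_congr rfl fun j _ => ?_
      rw [Finset.smul_sum]
      refine Finset.sum_congr rfl fun d _ => ?_
      rw [PiLp.smul_apply, map_smul, map_smul]
    rw [h1, hK.hom, PiLp.smul_apply, ← smul_add, h c, smul_zero]
  · have h1 := hK.form ξ (t • w) htw
    rw [htn, div_self hT0.ne', Complex.ofReal_one, one_smul] at h1
    exact h1

/-- the norm of a two-component field -/
theorem norm_sq_spv (u : HH) : ‖u‖ ^ 2 = ∫ x, ‖spv u x‖ ^ 2 ∂mQ := by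
  rw [PiLp.norm_sq_eq_of_L2, Fin.sum_univ_two]
  have h1 : ∀ c, ‖u c‖ ^ 2 = ∫ x, ‖u c x‖ ^ 2 ∂mQ := fun c =>
    rep_norm_sq (φ := fun x => u c x) (EventuallyEq.refl _ _)
  have hi : ∀ c, Integrable (fun x => ‖u c x‖ ^ 2) mQ := fun c =>
    (memLp_two_iff_integrable_sq_norm (Lp.aestronglyMeasurable _)).mp (Lp.memLp (u c))
  rw [h1, h1, ← integral_add (hi 0) (hi 1)]
  refine integral_congr_ae (Eventually.of_forall fun x => ?_)
  simp only []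
  rw [EuclideanSpace.norm_sq_eq, Fin.sum_univ_two, spv_apply, spv_apply]

theorem norm_sig (c : Fin 4) : ∃ M : ℝ, 0 ≤ M ∧ ∀ s : Sp, ‖sig c s‖ ≤ M * ‖s‖ :=
  ⟨‖sig c‖, norm_nonneg _, fun s => (sig c).le_opNorm s⟩

/-- bound of the frame -/
theorem bound_b {D : Data} (Q : Quat D) : ∃ M : ℝ, 0 ≤ M ∧ ∀ c x i, |Q.b c x i| ≤ M := by
  have h1 : ∀ c i, ∃ M : ℝ, 0 ≤ M ∧ ∀ x, ‖Q.b c x i‖ ≤ M := fun c i =>
    H332.E6.bdd_per ((continuous_apply i).comp (Q.b_smooth c).continuous)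
      (fun k x => by
        change Q.b c (tr k x) i = Q.b c x i
        rw [Q.b_per c k x])
  choose M hM0 hM using h1
  refine ⟨∑ c, ∑ i, M c i, Finset.sum_nonneg fun c _ => Finset.sum_nonneg fun i _ => hM0 c i, ?_⟩
  intro c x i
  refine (hM c i x).trans ((Finset.single_le_sum (f := fun i => M c i) (fun i _ => hM0 c i)
    (Finset.mem_univ i)).trans ?_)
  exact Finset.single_le_sum (f := fun c => ∑ i, M c i)
    (fun c _ => Finset.sum_nonneg fun i _ => hM0 c i) (Finset.mem_univ c)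

/-- bound of the nonlinear term -/
theorem bound_k {D : Data} (Q : Quat D) : ∃ M : ℝ, 0 ≤ M ∧ ∀ (x : R4) (a : Fin 4 → ℝ) (s : Sp),
    ‖∑ c, sig c (∑ i, (Q.b c x i : ℂ) • ((I * (a i : ℂ)) • s))‖ ^ 2 ≤
      M * (∑ i, a i ^ 2) * ‖s‖ ^ 2 := by
  obtain ⟨B, hB0, hB⟩ := bound_b Q
  choose S hS0 hS using norm_sig
  have hSS : 0 ≤ ∑ c, S c := Finset.sum_nonneg fun c _ => hS0 c
  refine ⟨((∑ c, S c) * B) ^ 2 * 4, by positivity, fun x a s => ?_⟩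
  have h1 : ∀ c, ‖∑ i, (Q.b c x i : ℂ) • ((I * (a i : ℂ)) • s)‖ ≤ B * (∑ i, |a i|) * ‖s‖ := by
    intro c
    refine (norm_sum_le _ _).trans ?_
    rw [Finset.mul_sum, Finset.sum_mul]
    refine Finset.sum_le_sum fun i _ => ?_
    rw [norm_smul, norm_smul, norm_mul, Complex.norm_I, one_mul, Complex.norm_real,
      Complex.norm_real, Real.norm_eq_abs, Real.norm_eq_abs, ← mul_assoc]
    have := hB c x i
    gcongr
  have h2 : ‖∑ c, sig c (∑ i, (Q.b c x i : ℂ) • ((I * (a i : ℂ)) • s))‖ ≤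
      (∑ c, S c) * B * (∑ i, |a i|) * ‖s‖ := by
    refine (norm_sum_le _ _).trans ?_
    calc ∑ c, ‖sig c (∑ i, (Q.b c x i : ℂ) • ((I * (a i : ℂ)) • s))‖
        ≤ ∑ c, S c * (B * (∑ i, |a i|) * ‖s‖) := Finset.sum_le_sum fun c _ =>
          (hS c _).trans (mul_le_mul_of_nonneg_left (h1 c) (hS0 c))
      _ = _ := by rw [← Finset.sum_mul]; ring
  have h3 : (∑ i, |a i|) ^ 2 ≤ 4 * ∑ i, a i ^ 2 := by
    have := sq_sum_le_card_mul_sum_sq (s := (Finset.univ : Finset (Fin 4))) (f := fun i => |a i|)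
    simpa using this
  calc _ ≤ ((∑ c, S c) * B * (∑ i, |a i|) * ‖s‖) ^ 2 := by gcongr
    _ = ((∑ c, S c) * B) ^ 2 * (∑ i, |a i|) ^ 2 * ‖s‖ ^ 2 := by ring
    _ ≤ ((∑ c, S c) * B) ^ 2 * (4 * ∑ i, a i ^ 2) * ‖s‖ ^ 2 := by gcongr
    _ = _ := by ring

end Vale.Agent.P247.H931.S1
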