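import Vale.Agent.P247.H931.S1.Main
import Vale.Agent.P247.H350.E3.Main
import Vale.Agent.P247.H880.Coc
import Vale.Agent.P247.H447.E5.Main

/-!
# `S1`: solutions of the Seiberg-Witten system of arbitrary size
-/

namespace Vale.Agent.P247.H931.S1

theorem s1_thm : H647.S1_statement :=
  s1_of (H350.E3.e34 H880.Co.COER H880.Co.RNG) H447.E5.E5

end Vale.Agent.P247.H931.S1
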