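import Vale.Agent.P247.H931.S1.Ws

/-!
# Weak solutions on `ℝ⁴` from solutions on the cube: the theorem
-/

open scoped ContDiff Topology
open Set MeasureTheory Filter Metric Complex

noncomputable section

namespace Vale.Agent.P247.H931.S1

open Vale.Agent.P247.H74 Vale.Agent.P247.H574 Vale.Agent.P247.H647 Vale.Agent.P247.H957

theorem LocL2.mul {f g : R4 → ℂ} (hf : LocL2 f) (hg : Continuous g) : LocL2 fun x => g x * f x := by
  intro K hK
  obtain ⟨C, hC⟩ := hK.exists_bound_of_continuousOn hg.continuousOn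
  have hae : ∀ᵐ x ∂(volume.restrict K), ‖g x‖ ≤ C := by
    rw [ae_restrict_iff' hK.measurableSet]
    exact Eventually.of_forall fun x hx => hC x hx
  refine (hf K hK).of_le_mul (c := C) (hg.aestronglyMeasurable.mul (hf K hK).1) ?_
  filter_upwards [hae] with x hx
  rw [norm_mul]
  gcongr

theorem continuous_A0e (ξ : ℝ × ℝ) (i : Fin 4) : Continuous fun x => I * (A0 ξ x (e i) : ℂ) :=
  continuous_const.mul (Complex.continuous_ofReal.comp
    ((contDiff_A0' ξ).continuous.clm_apply continuous_const))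

/-- the section and its derivatives -/
theorem exists_sec {J : ℝ × ℝ → H →L[ℂ] H} {G : ℝ × ℝ → Fin 4 → H →L[ℂ] H} (hF : Fl J G)
    (hE : EXT_statement) (ξ : ℝ × ℝ) (w : Fin 2 → H) :
    ∃ (φ : R4 → Sp) (N : Fin 4 → R4 → Sp), QS φ ∧ (∀ i, QS (N i)) ∧
      (∀ᵐ x ∂mQ, φ x = spv (fun d => J ξ (w d)) x) ∧
      (∀ i, ∀ᵐ x ∂mQ, N i x = spv (fun d => G ξ i (w d)) x) ∧
      H1S φ fun i x => N i x + (I * (A0 ξ x (e i) : ℂ)) • φ x := by
  have h1 := fun d => hE J G hF ξ (w d)
  choose f n hJ hG qf qn lf ln hw using h1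
  refine ⟨fun x => WithLp.toLp 2 ![f 0 x, f 1 x], fun i x => WithLp.toLp 2 ![n 0 i x, n 1 i x],
    ?_, ?_, ?_, ?_, ?_⟩
  · intro k x
    ext d
    fin_cases d
    · simpa using qf 0 k x
    · simpa using qf 1 k x
  · intro i k x
    ext d
    fin_cases d
    · simpa using qn 0 i k x
    · simpa using qn 1 i k x
  · filter_upwards [hJ 0, hJ 1] with x h0 h1
    unfold spv
    rw [h0, h1]
  · intro i
    filter_upwards [hG 0 i, hG 1 i] with x h0 h1
    unfold spv
    rw [h0, h1]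
  · have key : ∀ i, (fun x => (WithLp.toLp 2 ![n 0 i x, n 1 i x] : Sp) +
        (I * (A0 ξ x (e i) : ℂ)) • WithLp.toLp 2 ![f 0 x, f 1 x]) = fun x =>
        WithLp.toLp 2 ![n 0 i x + I * (A0 ξ x (e i) : ℂ) * f 0 x,
          n 1 i x + I * (A0 ξ x (e i) : ℂ) * f 1 x] := by
      intro i
      funext x
      ext d
      fin_cases d <;> simp
    have hl : ∀ d i, LocL2 fun x => n d i x + I * (A0 ξ x (e i) : ℂ) * f d x := fun d i =>
      (ln d i).add ((lf d).mul (continuous_A0e ξ i))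
    refine ⟨locL2_pair (lf 0) (lf 1), fun i => ?_, ?_, fun i => ?_⟩
    · rw [key i]
      exact locL2_pair (hl 0 i) (hl 1 i)
    · intro k x
      ext d
      fin_cases d
      · simpa using qf 0 k x
      · simpa using qf 1 k x
    · rw [key i]
      exact wkD_pair (lf 0) (lf 1) (hl 0 i) (hl 1 i) (hw 0 i) (hw 1 i)

theorem wsol_of_cube {J : ℝ × ℝ → H →L[ℂ] H} {G : ℝ × ℝ → Fin 4 → H →L[ℂ] H} (hF : Fl J G)
    (hE : EXT_statement) {D : Data} {Q : Quat D} {C R : ℝ} {𝒜 : HH → Lp (Fin 4 → ℝ) 4 mQ}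
    (hA : ConOp Q C R 𝒜) (ξ : ℝ × ℝ) (w : Fin 2 → H) (u : HH)
    (hu : ∀ᵐ x ∂mQ, ∃ z : ℂ, ‖z‖ = 1 ∧ spv u x = z • spv (fun d => J ξ (w d)) x)
    (heq : ∀ᵐ x ∂mQ, ∑ c, sig c (∑ i, (Q.b c x i : ℂ) • (spv (fun d => G ξ i (w d)) x -
      (I * (𝒜 u x i : ℂ)) • spv (fun d => J ξ (w d)) x)) = 0) :
    ∃ (φ : R4 → Sp) (W : Fin 4 → R4 → Sp) (a : Fin 4 → R4 → ℝ) (B : Fin 4 → Fin 4 → R4 → ℝ)
      (v : Fin 3 → ℝ), WSol Q R ξ φ W a B v ∧
      (∀ᵐ x ∂mQ, φ x = spv (fun d => J ξ (w d)) x) ∧ (∀ᵐ x ∂mQ, ∀ i, 𝒜 u x i = a i x) ∧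
      (∀ j, |v j| ≤ C * (1 + ‖u‖ ^ 2)) ∧
      ∫ x, ∑ i, a i x ^ 2 ∂mQ ≤ C * (1 + ∫ x, ∑ k, qR R (spv u x) k ^ 2 ∂mQ) := by
  obtain ⟨φ, N, qφ, qN, hφ, hN, hH⟩ := exists_sec hF hE ξ w
  obtain ⟨a, B, v, ha, hab, hdiv, hcurv, hv, hb⟩ := hA.sol u
  refine ⟨φ, fun i x => N i x + (I * (A0 ξ x (e i) : ℂ)) • φ x, a, B, v,
    ⟨hH, hab, ?_, hdiv, ?_⟩, hφ, ha, hv, hb⟩
  · have h1 : ∀ᵐ x, ∑ c, sig c (∑ i, (Q.b c x i : ℂ) • (N i x - (I * (a i x : ℂ)) • φ x)) = 0 := by
      refine ae_of_cube ?_ ?_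
      · have hN' : ∀ᵐ x ∂mQ, ∀ i, N i x = spv (fun d => G ξ i (w d)) x := ae_all_iff.mpr hN
        filter_upwards [heq, hφ, hN', ha] with x e1 e2 e3 e4
        simp only [e2, e3, ← e4]
        exact e1
      · intro k x hx
        have h2 : ∀ c i, (Q.b c (tr k x) i : ℂ) • (N i (tr k x) - (I * (a i (tr k x) : ℂ)) •
            φ (tr k x)) = cexp (2 * Real.pi * I * k 0 * x 1) • ((Q.b c x i : ℂ) •
              (N i x - (I * (a i x : ℂ)) • φ x)) := by
          intro c i
          rw [Q.b_per c k x, qN i k x, qφ k x, hab.a_per i k x]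
          simp only [smul_sub, smul_smul]
          congr 1
          · congr 1
            ring
          · congr 1
            ring
        simp only [h2]
        simp only [← Finset.smul_sum, map_smul]
        rw [hx, smul_zero]
    filter_upwards [h1] with x hx
    rw [← hx]
    refine Finset.sum_congr rfl fun c _ => ?_
    congr 1
    refine Finset.sum_congr rfl fun i _ => ?_
    congr 1
    push_cast
    rw [mul_add, add_smul]
    abel
  · refine ae_of_cube ?_ ?_
    · filter_upwards [hcurv, hu, hφ] with x e1 e2 e3 j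
      obtain ⟨z, hz, e4⟩ := e2
      rw [e1 j, e4, e3]
      simp only [qR_phase hz]
    · intro k x hx j
      have h2 := hx j
      have h3 : (fun p q => F0 p q + curl B (tr k x) p q) = fun p q => F0 p q + curl B x p q := by
        funext p q
        unfold curl
        rw [hab.B_per, hab.B_per]
      have h4 : triA D j (tr k x) = triA D j x := by
        funext p q
        unfold triA CForm.val
        have h5 : fderiv ℝ (tri D j).lam (tr k x) = fderiv ℝ (tri D j).lam x := by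
          have h6 : (fun y => (tri D j).lam (y + fun i => (k i : ℝ))) = (tri D j).lam := by
            funext y
            exact (tri D j).lam_per k y
          have h7 := fderiv_comp_add_right (𝕜 := ℝ) (f := (tri D j).lam) (x := x)
            (fun i => (k i : ℝ))
          rw [h6] at h7
          exact h7.symm
        rw [h5]
      have h5 : Q.T (tr k x) = Q.T x := by
        ext j k'
        exact Q.T_per j k' k x
      have h6 : ∀ l, qR R (φ (tr k x)) l = qR R (φ x) l := by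
        intro l
        rw [qφ k x, qR_phase (norm_ph k x)]
      rw [h3, h4, h5]
      simp only [h6]
      exact h2

end Vale.Agent.P247.H931.S1
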