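import Vale.Agent.P247.H931.S1.Unif
import Vale.Agent.P247.H931.S1.Ws2

/-!
# The fixed point gives a weak solution
-/

open scoped ContDiff Topology
open Set MeasureTheory Filter Metric Complex

noncomputable section

namespace Vale.Agent.P247.H931.S1

open Vale.Agent.P247.H74 Vale.Agent.P247.H574 Vale.Agent.P247.H647 Vale.Agent.P247.H957
  Vale.Agent.P247.H94

/-- the frame as an array of functions -/
def EQ {D : Data} (Q : Quat D) (a j : Fin 4) (x : R4) : ℝ := Q.b a x j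

theorem tri_EQ {D : Data} {Q : Quat D} (h : Tri Q) : H199.Tri (EQ Q) where
  smooth a i := (contDiff_apply ℝ ℝ i).comp (Q.b_smooth a)
  per a i n x := by
    unfold EQ
    rw [Q.b_per a n x]
  up a i x hi := h.1 a x i hi
  pos a x := h.2 a x

theorem opM_apply (M : Matrix (Fin 2) (Fin 2) ℂ) (s : Sp) (c : Fin 2) :
    opM M s c = ∑ d, M c d * s d := rfl

theorem spv_apply (u : Fin 2 → H) (x : R4) (c : Fin 2) : spv u x c = u c x := by
  unfold spv
  fin_cases c <;> rfl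

/-- the symbol applied to a family of spinors -/
theorem symb_sum {D : Data} (Q : Quat D) (x : R4) (s : Fin 4 → Sp) (c : Fin 2) :
    (∑ a, sig a (∑ j, (Q.b a x j : ℂ) • s j)) c =
      ∑ j, ∑ d, symF sigM (EQ Q) j x c d * s j d := by
  simp only [H199.symF_apply, EQ]
  rw [WithLp.ofLp_sum, Finset.sum_apply]
  unfold sig
  simp only [opM_apply, Fin.sum_univ_two, Fin.sum_univ_four, PiLp.add_apply, PiLp.smul_apply,
    smul_eq_mul]
  ring

/-- the values of `Dop` -/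
theorem Dop_ae {D : Data} {Q : Quat D} (hT : Tri Q) (G : ℝ × ℝ → Fin 4 → H →L[ℂ] H) (ξ : ℝ × ℝ)
    (w : Fin 2 → H) : ∀ᵐ x ∂mQ, ∀ c, Dop G (symF sigM (EQ Q)) ξ w c x =
      (∑ a, sig a (∑ j, (Q.b a x j : ℂ) • spv (fun d => G ξ j (w d)) x)) c := by
  refine ae_all_iff.mpr fun c => ?_
  have h1 : Rep (Dop G (symF sigM (EQ Q)) ξ w c)
      fun x => ∑ j, ∑ d, symF sigM (EQ Q) j x c d * G ξ j (w d) x := by
    unfold Dop
    refine rep_sum _ fun j _ => rep_sum _ fun d _ => ?_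
    exact rep_mulOp (H199.continuous_symF (tri_EQ hT) sigM j c d) (EventuallyEq.refl _ _)
  filter_upwards [h1] with x hx
  rw [hx, symb_sum]
  simp only [spv_apply]

theorem vx_ne (ξ : ℝ × ℝ) (x : R4) : vx ξ x ≠ 0 := by
  intro h
  have := H199.norm_vx ξ x
  rw [h, norm_zero] at this
  exact zero_ne_one this

theorem Vop_ae (ξ : ℝ × ℝ) (v : H) : ∀ᵐ x ∂mQ, H199.Vop ξ v x = vx ξ x * v x :=
  mulOp_ae (H199.continuous_vx ξ) v

/-- the fixed point equation, pointwise on the cube -/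
theorem eq_of_fix {J : ℝ × ℝ → H →L[ℂ] H} {G : ℝ × ℝ → Fin 4 → H →L[ℂ] H} {D : Data} {Q : Quat D}
    (hT : Tri Q) (ξ : ℝ × ℝ) (w k : HH) (b : Fin 4 → R4 → ℝ)
    (h : ∀ c, Dop (H199.Gh G) (symF sigM (EQ Q)) ξ w c + k c = 0)
    (hk : ∀ᵐ x ∂mQ, spv k x = - ∑ c, sig c (∑ i, (Q.b c x i : ℂ) •
      ((I * (b i x : ℂ)) • spv (JhH J ξ w) x))) :
    (∀ᵐ x ∂mQ, spv (JhH J ξ w) x = vx ξ x • spv (fun d => J ξ (H199.Vop (-ξ) (w d))) x) ∧
    ∀ᵐ x ∂mQ, ∑ c, sig c (∑ i, (Q.b c x i : ℂ) • (spv (fun d => G ξ i (H199.Vop (-ξ) (w d))) x -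
      (I * (b i x : ℂ)) • spv (fun d => J ξ (H199.Vop (-ξ) (w d))) x)) = 0 := by
  have h1 : ∀ᵐ x ∂mQ, spv (JhH J ξ w) x =
      vx ξ x • spv (fun d => J ξ (H199.Vop (-ξ) (w d))) x := by
    have e1 : ∀ᵐ x ∂mQ, ∀ d : Fin 2, H199.Vop ξ (J ξ (H199.Vop (-ξ) (w d))) x =
        vx ξ x * J ξ (H199.Vop (-ξ) (w d)) x := ae_all_iff.mpr fun d => Vop_ae ξ _
    filter_upwards [e1] with x hx
    ext d
    rw [spv_apply, PiLp.smul_apply, spv_apply, smul_eq_mul, ← hx d]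
    rfl
  refine ⟨h1, ?_⟩
  have h2 : ∀ᵐ x ∂mQ, ∀ c : Fin 2, H199.Vop ξ (Dop G (symF sigM (EQ Q)) ξ
      (fun d => H199.Vop (-ξ) (w d)) c) x =
        vx ξ x * Dop G (symF sigM (EQ Q)) ξ (fun d => H199.Vop (-ξ) (w d)) c x :=
    ae_all_iff.mpr fun c => Vop_ae ξ _
  have h3 : ∀ᵐ x ∂mQ, ∀ c : Fin 2, (H199.Vop ξ (Dop G (symF sigM (EQ Q)) ξ
      (fun d => H199.Vop (-ξ) (w d)) c) x : ℂ) + k c x = 0 := by
    refine ae_all_iff.mpr fun c => ?_
    have e1 := h c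
    rw [H199.Dop_Gh (fun j c d => H199.continuous_symF (tri_EQ hT) sigM j c d)] at e1
    filter_upwards [Lp.coeFn_add (H199.Vop ξ (Dop G (symF sigM (EQ Q)) ξ
      (fun d => H199.Vop (-ξ) (w d)) c)) (k c), Lp.coeFn_zero ℂ 2 mQ] with x e2 e3
    rw [e1] at e2
    rw [e3] at e2
    simpa using e2.symm
  filter_upwards [h1, h2, h3, hk, Dop_ae hT G ξ (fun d => H199.Vop (-ξ) (w d))] with x e1 e2 e3 e4 e5
  have e6 : vx ξ x • (∑ c, sig c (∑ i, (Q.b c x i : ℂ) •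
      (spv (fun d => G ξ i (H199.Vop (-ξ) (w d))) x -
      (I * (b i x : ℂ)) • spv (fun d => J ξ (H199.Vop (-ξ) (w d))) x))) = 0 := by
    have e7 : vx ξ x • (∑ a, sig a (∑ j, (Q.b a x j : ℂ) •
        spv (fun d => G ξ j (H199.Vop (-ξ) (w d))) x)) + spv k x = 0 := by
      ext c
      rw [PiLp.add_apply, PiLp.smul_apply, ← e5 c, spv_apply, smul_eq_mul, ← e2 c]
      exact e3 c
    rw [e4, e1] at e7
    simp only [smul_sub, Finset.sum_sub_distrib, map_sub]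
    rw [sub_eq_add_neg]
    convert e7 using 2
    simp only [Finset.smul_sum, map_sum, map_smul]
    congr 1
    refine Finset.sum_congr rfl fun c _ => Finset.sum_congr rfl fun i _ => ?_
    simp only [smul_smul]
    congr 1
    ring
  exact (smul_eq_zero.mp e6).resolve_left (vx_ne ξ x)

end Vale.Agent.P247.H931.S1
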