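import Vale.Agent.P247.H931.S1.Sta
import Vale.Agent.P247.H199.Glue0

/-!
# The nonlinear term of the fixed point problem: statement
-/

open scoped ContDiff Topology
open Set MeasureTheory Filter Metric Complex

noncomputable section

namespace Vale.Agent.P247.H931.S1

open Vale.Agent.P247.H74 Vale.Agent.P247.H574 Vale.Agent.P247.H647 Vale.Agent.P247.H957
  Vale.Agent.P247.H199

/-- the two-component version of `Jh` -/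
def JhH (J : ℝ × ℝ → H →L[ℂ] H) (ξ : ℝ × ℝ) (w : HH) : HH := WithLp.toLp 2 fun d => Jh J ξ (w d)

/-- The nonlinear term `K ξ w = - i ∑ sig c (∑ᵢ b c i 𝒜ᵢ((T/‖w‖) Jh ξ w)) Jh ξ w`, with the
properties used in `glue_sig`. -/
structure KOp {D : Data} (Q : Quat D) (J : ℝ × ℝ → H →L[ℂ] H) (T : ℝ)
    (𝒜 : HH → Lp (Fin 4 → ℝ) 4 mQ) (K : ℝ × ℝ → HH → HH) : Prop where
  cont : Continuous fun p : (ℝ × ℝ) × HH => K p.1 p.2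
  per1 : ∀ ξ w, K (ξ + (1, 0)) w = K ξ w
  per2 : ∀ ξ w, K (ξ + (0, 1)) w = K ξ w
  hom : ∀ ξ (a : ℂ) w, K ξ (a • w) = a • K ξ w
  cpt : ∀ R : ℝ, ∃ S : Set HH, IsCompact S ∧ ∀ ξ w, ‖w‖ ≤ R → K ξ w ∈ S
  form : ∀ ξ w, w ≠ 0 → ∀ᵐ x ∂mQ, spv (K ξ w) x = - ∑ c, sig c (∑ i, (Q.b c x i : ℂ) •
    ((I * (𝒜 (((T / ‖w‖ : ℝ) : ℂ) • JhH J ξ w) x i : ℂ)) • spv (JhH J ξ w) x))

def KOP_statement : Prop := ∀ (J : ℝ × ℝ → H →L[ℂ] H) (G : ℝ × ℝ → Fin 4 → H →L[ℂ] H), Fl J G →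
  ∀ (D : Data) (Q : Quat D) (C R : ℝ) (𝒜 : HH → Lp (Fin 4 → ℝ) 4 mQ), ConOp Q C R 𝒜 →
  ∀ T : ℝ, 0 < T → ∃ K : ℝ × ℝ → HH → HH, KOp Q J T 𝒜 K

end Vale.Agent.P247.H931.S1
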