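import Vale.Agent.P247.H199.Glue2
import Vale.Agent.P247.H931.S1.KSta

/-!
# The a priori estimate, uniformly in the flat parameter
-/

open scoped ContDiff Topology
open Set MeasureTheory Filter Metric Complex

noncomputable section

namespace Vale.Agent.P247.H931.S1

open Vale.Agent.P247.H74 Vale.Agent.P247.H574 Vale.Agent.P247.H647 Vale.Agent.P247.H957
  Vale.Agent.P247.H94

section abs

variable {P X Y : Type*} [TopologicalSpace P] [NormedAddCommGroup X] [NormedSpace ℂ X]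
  [NormedAddCommGroup Y] [NormedSpace ℂ Y]

/-- lower bounds are uniform on compact sets -/
theorem unif_est {A B : P → X →L[ℂ] Y} {S : Set P} (hS : IsCompact S) (hA : Continuous A)
    (hB : Continuous B) (h : ∀ p, ∃ C > 0, ∀ ψ, ‖ψ‖ ≤ C * (‖A p ψ‖ + ‖B p ψ‖)) :
    ∃ C > 0, ∀ p ∈ S, ∀ ψ, ‖ψ‖ ≤ C * (‖A p ψ‖ + ‖B p ψ‖) := by
  refine hS.induction_on (p := fun S => ∃ C > 0, ∀ p ∈ S, ∀ ψ, ‖ψ‖ ≤ C * (‖A p ψ‖ + ‖B p ψ‖))
    ⟨1, one_pos, fun p hp => absurd hp (notMem_empty p)⟩ ?_ ?_ ?_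
  · rintro s t hst ⟨C, hC, h1⟩
    exact ⟨C, hC, fun p hp => h1 p (hst hp)⟩
  · rintro s t ⟨C, hC, h1⟩ ⟨C', hC', h2⟩
    refine ⟨max C C', lt_max_of_lt_left hC, ?_⟩
    rintro p (hp | hp) ψ
    · exact (h1 p hp ψ).trans (mul_le_mul_of_nonneg_right (le_max_left _ _) (by positivity))
    · exact (h2 p hp ψ).trans (mul_le_mul_of_nonneg_right (le_max_right _ _) (by positivity))
  · intro p _
    obtain ⟨C, hC, h1⟩ := h p
    have e1 : ∀ᶠ q in 𝓝 p, ‖A p - A q‖ < 1 / (4 * C) := by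
      have : Tendsto (fun q => ‖A p - A q‖) (𝓝 p) (𝓝 ‖A p - A p‖) :=
        (continuous_const.sub hA).norm.tendsto p
      rw [sub_self, norm_zero] at this
      exact this.eventually (gt_mem_nhds (by positivity))
    have e2 : ∀ᶠ q in 𝓝 p, ‖B p - B q‖ < 1 / (4 * C) := by
      have : Tendsto (fun q => ‖B p - B q‖) (𝓝 p) (𝓝 ‖B p - B p‖) :=
        (continuous_const.sub hB).norm.tendsto p
      rw [sub_self, norm_zero] at this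
      exact this.eventually (gt_mem_nhds (by positivity))
    refine ⟨{q | ‖A p - A q‖ < 1 / (4 * C) ∧ ‖B p - B q‖ < 1 / (4 * C)},
      mem_nhdsWithin_of_mem_nhds (e1.and e2), 2 * C, by positivity, ?_⟩
    rintro q ⟨h2, h3⟩ ψ
    have h4 : ‖A p ψ‖ ≤ ‖A q ψ‖ + 1 / (4 * C) * ‖ψ‖ := by
      have h5 : A p ψ = A q ψ + (A p - A q) ψ := by
        rw [sub_apply]
        abel
      rw [h5]
      exact (norm_add_le _ _).trans (by
        gcongr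
        exact ContinuousLinearMap.le_of_opNorm_le _ h2.le ψ)
    have h4' : ‖B p ψ‖ ≤ ‖B q ψ‖ + 1 / (4 * C) * ‖ψ‖ := by
      have h5 : B p ψ = B q ψ + (B p - B q) ψ := by
        rw [sub_apply]
        abel
      rw [h5]
      exact (norm_add_le _ _).trans (by
        gcongr
        exact ContinuousLinearMap.le_of_opNorm_le _ h3.le ψ)
    have h6 := h1 ψ
    have h7 : C * (‖A p ψ‖ + ‖B p ψ‖) ≤ C * (‖A q ψ‖ + ‖B q ψ‖) + 1 / 2 * ‖ψ‖ := by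
      have h8 : C * (‖A p ψ‖ + ‖B p ψ‖) ≤ C * ((‖A q ψ‖ + 1 / (4 * C) * ‖ψ‖) +
          (‖B q ψ‖ + 1 / (4 * C) * ‖ψ‖)) := by gcongr
      refine h8.trans (le_of_eq ?_)
      field_simp
      ring
    linarith

end abs

/-- every point is congruent to a point of the unit square -/
theorem exists_red (ξ : ℝ × ℝ) : ∃ η ∈ Icc (0 : ℝ × ℝ) 1, ∃ m n : ℤ,
    ξ = η + ((m : ℝ), (n : ℝ)) := by
  refine ⟨(Int.fract ξ.1, Int.fract ξ.2), ⟨⟨Int.fract_nonneg _, Int.fract_nonneg _⟩,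
    ⟨(Int.fract_lt_one _).le, (Int.fract_lt_one _).le⟩⟩, ⌊ξ.1⌋, ⌊ξ.2⌋, ?_⟩
  ext
  · exact (Int.fract_add_floor ξ.1).symm
  · exact (Int.fract_add_floor ξ.2).symm

variable {J : ℝ × ℝ → H →L[ℂ] H} {G : ℝ × ℝ → Fin 4 → H →L[ℂ] H}

theorem continuous_Dh0 (hF : Fl J G) (E : Fin 4 → Fin 4 → R4 → ℝ) :
    Continuous fun ξ => H199.Dh G E 0 ξ := by
  have h1 := H199.Dh_cont hF E
  rw [← continuousOn_univ]
  exact h1.comp (f := fun ξ : ℝ × ℝ => ((0 : ℝ), ξ)) (by fun_prop)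
    fun ξ _ => ⟨⟨le_rfl, zero_le_one⟩, mem_univ _⟩

theorem Dh_unif (hF : Fl J G) {E : Fin 4 → Fin 4 → R4 → ℝ} (hE : H199.Tri E) :
    ∃ C > 0, ∀ ξ ψ, ‖ψ‖ ≤ C * (‖H199.Dh G E 0 ξ ψ‖ + ‖H199.JJ J ξ ψ‖) := by
  obtain ⟨C, hC, h⟩ := unif_est (S := Icc (0 : ℝ × ℝ) 1) isCompact_Icc (continuous_Dh0 hF E)
    (H199.continuous_JJ hF) fun ξ => H199.Dh_est hF hE ⟨le_rfl, zero_le_one⟩ ξ
  refine ⟨C, hC, fun ξ ψ => ?_⟩
  obtain ⟨η, hη, m, n, rfl⟩ := exists_red ξ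
  rw [H199.Dh_per hF, H199.JJ_per hF]
  exact h η hη ψ

/-- The estimate with the matrices of `H647/Defs`, for solutions of `D w + k = 0`. -/
theorem apri (hF : Fl J G) {E : Fin 4 → Fin 4 → R4 → ℝ} (hE : H199.Tri E) :
    ∃ C > 0, ∀ (ξ : ℝ × ℝ) (w k : HH),
      (∀ c, Dop (H199.Gh G) (symF sigM E) ξ w c + k c = 0) →
      ‖w‖ ≤ C * (‖k‖ + ‖H199.JJ J ξ w‖) := by
  obtain ⟨C, hC, h⟩ := Dh_unif hF hE
  have hU : 0 < ‖H199.Uo‖ + 1 := by positivity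
  refine ⟨(‖H199.Uo‖ + 1) ^ 2 * C, by positivity, fun ξ w k hw => ?_⟩
  have h1 : H199.Dh G E 0 ξ (H199.Uo w) = - H199.Uo k := by
    have h2 : H199.Uo (H199.Dh G E 0 ξ (H199.Uo w)) = -k := by
      ext1 c
      rw [H199.Uo_apply]
      simp only [H199.Dh_zero hE]
      rw [← H199.Dop_sigM hE]
      exact eq_neg_of_add_eq_zero_left (hw c)
    rw [← H199.Uo_Uo (H199.Dh G E 0 ξ (H199.Uo w)), h2, map_neg]
  have h3 : H199.JJ J ξ (H199.Uo w) = H199.Uo (H199.JJ J ξ w) := by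
    ext1 c
    rw [H199.JJ_apply, H199.Uo_apply, H199.Uo_apply, map_sum]
    exact Finset.sum_congr rfl fun d _ => by rw [map_smul, H199.JJ_apply]
  have h4 := h ξ (H199.Uo w)
  rw [h1, h3, norm_neg] at h4
  have h5 : ‖w‖ ≤ ‖H199.Uo‖ * ‖H199.Uo w‖ := by
    conv_lhs => rw [← H199.Uo_Uo w]
    exact H199.Uo.le_opNorm _
  have h6 : ‖H199.Uo k‖ ≤ ‖H199.Uo‖ * ‖k‖ := H199.Uo.le_opNorm _
  have h7 : ‖H199.Uo (H199.JJ J ξ w)‖ ≤ ‖H199.Uo‖ * ‖H199.JJ J ξ w‖ := H199.Uo.le_opNorm _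
  have hu := norm_nonneg H199.Uo
  calc ‖w‖ ≤ ‖H199.Uo‖ * ‖H199.Uo w‖ := h5
    _ ≤ ‖H199.Uo‖ * (C * (‖H199.Uo‖ * ‖k‖ + ‖H199.Uo‖ * ‖H199.JJ J ξ w‖)) :=
        mul_le_mul_of_nonneg_left (h4.trans (mul_le_mul_of_nonneg_left (add_le_add h6 h7) hC.le)) hu
    _ = ‖H199.Uo‖ ^ 2 * C * (‖k‖ + ‖H199.JJ J ξ w‖) := by ring
    _ ≤ (‖H199.Uo‖ + 1) ^ 2 * C * (‖k‖ + ‖H199.JJ J ξ w‖) := by gcongr; linarith

end Vale.Agent.P247.H931.S1
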