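import Vale.Agent.P247.H931.S1.Cl

/-!
# Weak solutions on `ℝ⁴` from solutions on the cube
-/

open scoped ContDiff Topology
open Set MeasureTheory Filter Metric Complex

noncomputable section

namespace Vale.Agent.P247.H931.S1

open Vale.Agent.P247.H74 Vale.Agent.P247.H574 Vale.Agent.P247.H647 Vale.Agent.P247.H957

section Weak

variable {E F : Type*} [NormedAddCommGroup E] [NormedSpace ℝ E] [NormedAddCommGroup F]
  [NormedSpace ℝ F]

theorem LocL2.clm {f : R4 → E} (hf : LocL2 f) (L : E →L[ℝ] F) : LocL2 fun x => L (f x) :=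
  fun K hK => L.comp_memLp' (hf K hK)

omit [NormedSpace ℝ E] in
theorem LocL2.add {f g : R4 → E} (hf : LocL2 f) (hg : LocL2 g) : LocL2 fun x => f x + g x :=
  fun K hK => (hf K hK).add (hg K hK)

theorem LocL2.int {f : R4 → E} (hf : LocL2 f) {η : R4 → ℝ} (hη : Continuous η)
    (hc : HasCompactSupport η) : Integrable fun x => η x • f x :=
  hf.locInt.integrable_smul_left_of_hasCompactSupport hη hc

theorem cont_dη {η : R4 → ℝ} (hη : ContDiff ℝ ∞ η) (i : Fin 4) :
    Continuous fun x => fderiv ℝ η x (e i) :=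
  (hη.continuous_fderiv (by simp)).clm_apply continuous_const

theorem WkD.clm [CompleteSpace E] [CompleteSpace F] {f g : R4 → E} {i : Fin 4} (h : WkD f g i)
    (hf : LocL2 f) (hg : LocL2 g) (L : E →L[ℝ] F) :
    WkD (fun x => L (f x)) (fun x => L (g x)) i := by
  intro η hη hηc
  have h1 := h η hη hηc
  have e1 : ∫ x, fderiv ℝ η x (e i) • L (f x) = L (∫ x, fderiv ℝ η x (e i) • f x) := by
    rw [← L.integral_comp_comm (hf.int (cont_dη hη i) (hηc.fderiv_apply (𝕜 := ℝ) (e i)))]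
    simp only [map_smul]
  have e2 : ∫ x, η x • L (g x) = L (∫ x, η x • g x) := by
    rw [← L.integral_comp_comm (hg.int hη.continuous hηc)]
    simp only [map_smul]
  rw [e1, e2, h1, map_neg]

theorem WkD.add {f g f' g' : R4 → E} {i : Fin 4} (h : WkD f g i) (h' : WkD f' g' i)
    (hf : LocL2 f) (hg : LocL2 g) (hf' : LocL2 f') (hg' : LocL2 g') :
    WkD (fun x => f x + f' x) (fun x => g x + g' x) i := by
  intro η hη hηc
  have hd := hηc.fderiv_apply (𝕜 := ℝ) (e i)
  simp only [smul_add]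
  rw [integral_add (hf.int (cont_dη hη i) hd) (hf'.int (cont_dη hη i) hd),
    integral_add (hg.int hη.continuous hηc) (hg'.int hη.continuous hηc), h η hη hηc, h' η hη hηc]
  abel

end Weak

/-! ## Two-component fields -/

/-- inclusions of the two components, as real linear maps -/
def inc (d : Fin 2) : ℂ →L[ℝ] Sp :=
  (ContinuousLinearMap.toSpanSingleton ℂ (EuclideanSpace.single d (1 : ℂ) : Sp)).restrictScalars ℝ

theorem toLp_eq (a b : ℂ) : (WithLp.toLp 2 ![a, b] : Sp) = inc 0 a + inc 1 b := by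
  unfold inc
  ext i
  fin_cases i <;> simp

theorem locL2_pair {f g : R4 → ℂ} (hf : LocL2 f) (hg : LocL2 g) :
    LocL2 fun x => (WithLp.toLp 2 ![f x, g x] : Sp) := by
  simp only [toLp_eq]
  exact (hf.clm (inc 0)).add (hg.clm (inc 1))

theorem wkD_pair {f g f' g' : R4 → ℂ} {i : Fin 4} (hf : LocL2 f) (hg : LocL2 g) (hf' : LocL2 f')
    (hg' : LocL2 g') (h : WkD f f' i) (h' : WkD g g' i) :
    WkD (fun x => (WithLp.toLp 2 ![f x, g x] : Sp)) (fun x => WithLp.toLp 2 ![f' x, g' x]) i := by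
  simp only [toLp_eq]
  exact (h.clm hf hf' (inc 0)).add (h'.clm hg hg' (inc 1)) (hf.clm _) (hf'.clm _) (hg.clm _)
    (hg'.clm _)

/-! ## From the cube to the whole space -/

/-- the integer part of a point -/
def flr (x : R4) : Fin 4 → ℤ := fun i => ⌊x i⌋

theorem tr_neg_flr_mem (x : R4) : tr (-flr x) x ∈ Icc (0 : R4) 1 := by
  constructor
  · intro i
    simp only [tr, flr, Pi.neg_apply, Int.cast_neg, Pi.zero_apply]
    linarith [Int.floor_le (x i)]
  · intro i
    simp only [tr, flr, Pi.neg_apply, Int.cast_neg, Pi.one_apply]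
    linarith [(Int.lt_floor_add_one (x i)).le]

theorem tr_flr (x : R4) : tr (flr x) (tr (-flr x) x) = x := by
  funext i
  simp [tr]

theorem ae_of_cube {P : R4 → Prop} (h : ∀ᵐ x ∂mQ, P x) (hP : ∀ (k : Fin 4 → ℤ) x, P x → P (tr k x)) :
    ∀ᵐ x, P x := by
  have h1 : ∀ᵐ x : R4, x ∈ Icc (0 : R4) 1 → P x :=
    (ae_restrict_iff' measurableSet_Icc).mp h
  have h2 : ∀ᵐ x : R4, ∀ k : Fin 4 → ℤ, tr k x ∈ Icc (0 : R4) 1 → P (tr k x) :=
    ae_all_iff.mpr fun k => ae_tr h1 k
  filter_upwards [h2] with x hx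
  have h3 := hP (flr x) _ (hx (-flr x) (tr_neg_flr_mem x))
  rwa [tr_flr] at h3

/-! ## The truncated map and phases -/

theorem qR_phase {R : ℝ} {z : ℂ} (hz : ‖z‖ = 1) (s : Sp) (k : Fin 3) : qR R (z • s) k = qR R s k := by
  unfold qR
  rw [norm_smul, hz, one_mul, map_smul, inner_smul_left, inner_smul_right, ← mul_assoc,
    ← Complex.normSq_eq_conj_mul_self, Complex.normSq_eq_norm_sq, hz]
  simp

theorem norm_ph (k : Fin 4 → ℤ) (x : R4) : ‖cexp (2 * Real.pi * I * k 0 * x 1)‖ = 1 := by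
  have : (2 * Real.pi * I * k 0 * x 1 : ℂ) = ((2 * Real.pi * k 0 * x 1 : ℝ) : ℂ) * I := by
    push_cast
    ring
  rw [this, Complex.norm_exp_ofReal_mul_I]

end Vale.Agent.P247.H931.S1
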